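import Vale.Agent.P257.H763.Ratio
import Vale.Agent.P251.Q.GoodInst

/-!
# P257: restriction of classes of total spaces to fibres
-/

open CategoryTheory MonoidalCategory OnePoint Matrix Topology
open Vale.Agent.P251.G Vale.Agent.P251.G.LC Vale.Agent.P251.G.Bun Vale.Agent.P251.Q
open Vale.Agent.P251.Q.MultTheory

universe v

noncomputable section

namespace Vale.Agent.P257.H763

variable {E : MultTheory.{v}} (o : Orientation E)

/-- the inclusion of a point -/
def ptC {B : LC} (b : B) : C((𝟙_ LC : LC), B) := ⟨fun _ => b, continuous_const⟩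

theorem act_const {Z B : LC} [E.Good Z] [E.Good B] (b : B) (u : E.U B) (y : E.U Z) :
    E.act (⟨fun _ => b, continuous_const⟩ : C(Z, B)) u y =
      E.toA (E.map (cmap (ptC b)) u) • y := by
  rw [smul_eq_act, ofA_toA]
  symm
  exact act_map _ _ _ (fun _ => rfl) _ _

/-- Euler classes of line bundles over the point vanish. -/
theorem lc_ptC {I : Type} [Fintype I] (b : Gr 1 I) :
    o.lc (X := 𝟙_ LC) (ptC (B := CP I) b) = 0 := by
  classical
  obtain ⟨x, hx, -, hP⟩ := b.isProj.exists_lineP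
  let u : Matrix I Unit ℂ := fun i _ => x i
  have hu : uᴴ * u = 1 := by
    ext i j
    rw [Matrix.mul_apply, Subsingleton.elim i j, Matrix.one_apply_eq]
    have h1 := nsq_eq_dotProduct x
    rw [hx] at h1
    exact h1.symm.trans (by simp)
  have h1 : ptC (B := CP I) b = (grMapC 1 u hu).comp (trivL (𝟙_ LC)) := by
    refine line_ext fun _ => ?_
    change b.P = u * 1 * uᴴ
    rw [Matrix.mul_one, hP]
    ext i j
    simp only [Matrix.mul_apply, lineP, vecMulVec_apply, Finset.univ_unique,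
      Finset.sum_singleton]
    rfl
  rw [h1, lc_grMapC, lc_unit]

/-- Restriction to a fibre. -/
theorem map_fibre {B : LC} [CompactSpace B] [E.Good B] {ι : Type} [Fintype ι] {n : ℕ}
    (V : Bun B ι) [E.Good V.tot] (hV : V.IsRank n) {Z : LC} [E.Good Z] (j : Z ⟶ V.tot) (b : B)
    (hj : ∀ z : Z, ∃ x : V.E, app j (z : OnePoint Z) = (x : OnePoint V.E) ∧ base x = b)
    (u : E.U B) : E.map j (o.phi V hV u) =
      E.toA (E.map (cmap (ptC b)) u) • E.map j (o.thom V hV) := by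
  rw [phi_eq_act_thom, map_act j (tcb V) (⟨fun _ => b, continuous_const⟩ : C(Z, B)), act_const]
  intro w z hw
  obtain ⟨x, hx, hb⟩ := hj w
  rw [hx] at hw
  have h1 : x = z := OnePoint.coe_injective hw
  subst h1
  exact hb

/-- Restriction to a fibre over a projective space. -/
theorem map_fibre_cp {I : Type} [Fintype I] {ι : Type} [Fintype ι] {n : ℕ}
    (V : Bun (Gr 1 I) ι) (hV : V.IsRank n) {Z : LC} [E.Good Z] (j : Z ⟶ V.tot)
    (b : Gr 1 I)
    (hj : ∀ z : Z, ∃ x : V.E, app j (z : OnePoint Z) = (x : OnePoint V.E) ∧ base x = b)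
    {N : ℕ} (hN : N ≠ 0) (a : ℕ → E.A) :
    E.map j (o.phi (Z := CP I) V hV (∑ i : Fin N, a i • o.z I ^ (i : ℕ))) =
      a 0 • E.map j (o.thom (B := CP I) V hV) := by
  have h1 := map_fibre o (B := CP I) V hV j b hj (∑ i : Fin N, a i • o.z I ^ (i : ℕ))
  refine h1.trans ?_
  congr 1
  have h2 : E.map (cmap (ptC (B := CP I) b)) (∑ i : Fin N, a i • o.z I ^ (i : ℕ)) =
      ∑ i : Fin N, a i • (o.lc (X := 𝟙_ LC) (ptC (B := CP I) b)) ^ (i : ℕ) := by
    have h3 : ∀ x, E.map (cmap (ptC (B := CP I) b)) x =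
      E.mapAlg (X := 𝟙_ LC) (ptC (B := CP I) b) x := fun _ => rfl
    rw [map_sum]
    refine Finset.sum_congr rfl fun i _ => ?_
    rw [MultTheory.map_smul, h3, map_pow]
    rfl
  rw [h2, lc_ptC]
  obtain ⟨M, rfl⟩ := Nat.exists_eq_succ_of_ne_zero hN
  rw [Fin.sum_univ_succ]
  have h4 : ∀ i : Fin M, a i.succ • (0 : E.U (𝟙_ LC)) ^ ((i.succ : Fin (M + 1)) : ℕ) = 0 := by
    intro i
    rw [Fin.val_succ, pow_succ, mul_zero, smul_zero]
  rw [Finset.sum_congr rfl fun i _ => h4 i, Finset.sum_const_zero, add_zero, Fin.val_zero,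
    pow_zero]
  have h6 : (1 : E.U (𝟙_ LC)) = E.ofA 1 := by
    have h7 : cmap (toPt (𝟙_ LC)) = 𝟙 (𝟙_ LC) := LC.hom_ext fun _ => rfl
    rw [one_def, MultTheory.oneU, h7, MultTheory.map_id]
    rfl
  have h5 : a 0 • E.ofA 1 = E.ofA (a 0 * 1) := rfl
  rw [h6, h5, mul_one, toA_ofA]

/-- The homogeneous coefficients of a class of the Thom space of degree the rank. -/
theorem exists_coeff {I : Type} [Fintype I] {ι : Type} [Fintype ι] {n N : ℕ}
    (hN : Fintype.card I = N) (V : Bun (Gr 1 I) ι) (hV : V.IsRank n)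
    {y : E.U V.tot} (hy : y ∈ E.deg V.tot (n : ℤ)) :
    ∃ a : ℕ → E.A, (∀ i : ℕ, a i ∈ E.degA (-(i : ℤ))) ∧
      y = o.phi (Z := CP I) V hV (∑ i : Fin N, a i • o.z I ^ (i : ℕ)) := by
  classical
  obtain ⟨g, hg⟩ := (phi_bijective o (Z := CP I) V hV).2 y
  obtain ⟨c, hc⟩ := (freeOn_z o N I hN).bijective_smul.2 g
  have hc' : ∑ i : Fin N, c i • o.z I ^ (i : ℕ) = g := hc
  refine ⟨fun i => if h : i < N then E.toA (E.proj (𝟙_ LC) (-(i : ℤ)) (E.ofA (c ⟨i, h⟩))) else 0,
    ?_, ?_⟩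
  · intro i
    beta_reduce
    split_ifs with h
    · exact proj_mem _ _
    · exact zero_mem _
  · have h1 : E.proj (CP I) 0 g = ∑ i : Fin N,
        (fun i : ℕ => if h : i < N then
          E.toA (E.proj (𝟙_ LC) (-(i : ℤ)) (E.ofA (c ⟨i, h⟩))) else 0) i • o.z I ^ (i : ℕ) := by
      rw [← hc', map_sum]
      refine Finset.sum_congr rfl fun i _ => ?_
      have hi := pow_deg (z_deg o I) (i : ℕ)
      rw [mul_one] at hi
      rw [proj_smul (l := -(i : ℤ)) (by ring) _ hi]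
      beta_reduce
      rw [dif_pos i.2]
    rw [← h1]
    have h2 := map_proj_of_deg (f := o.phi (Z := CP I) V hV) (m := (n : ℤ))
      (fun k a ha => phi_deg o (Z := CP I) V hV ha) 0 g
    rw [← h2, hg, zero_add]
    exact (proj_of_mem hy).symm

end Vale.Agent.P257.H763
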