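import Vale.Agent.P257.H763.Lift
import Vale.Agent.P257.H763.Fibre

/-!
# P257: no Thom class modulo `p` on `1 ⊕ L ⊕ … ⊕ L^{p-1}` over `ℂP^{p-1}`

`noThom`: there is no map `ϑ : Σ E(ρ) ⟶ Σ Z ⊗ C`, `C = S/p`, which extends the unit of a fibre
`Z ⟶ E(ρ)`.
-/

open CategoryTheory MonoidalCategory Limits Pretriangulated MonObj
open Vale.Agent.P251.G Vale.Agent.P251.G.LC Vale.Agent.P251.I Vale.Agent.P251.T
open Vale.Agent.P251.F Vale.Agent.P251.S Vale.Agent.P251.M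

universe v u

set_option linter.unusedSectionVars false

noncomputable section

namespace Vale.Agent.P257.H763

/-- the total space of `ρ` over the projective space of `ℂ^κ`, as a finite cell space -/
def rhoF (p : ℕ) (κ : Type) [Fintype κ] : FCat := ⟨(rhoG p κ).tot, Vale.Agent.P251.G.Cell.fc_tot (rhoG p κ)⟩

variable {T : Type u} [Category.{v} T] [Preadditive T] [HasZeroObject T]
    [HasShift T ℤ] [∀ n : ℤ, (shiftFunctor T n).Additive] [Pretriangulated T]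
    [MonoidalCategory T] [SymmetricCategory T] [TensorTriangulated T] [HasCoproducts.{0} T]
  {F : SpaceFunctor T} (e : F.S.obj CCF ≅ (stdEven T).L)
  (D : MUData T) (o : Vale.Agent.P251.Q.Orientation (thK e D.R))
  (hev : ∀ s, D.ev s = amEv e D.R o s)
  {p : ℕ} [hpp : Fact p.Prime] (hp : p ≠ 2) {C : T} {i : 𝟙_ T ⟶ C}
  {δ : C ⟶ (𝟙_ T)⟦(1 : ℤ)⟧} (hC : Triangle.mk ((p : ℤ) • 𝟙 (𝟙_ T)) i δ ∈ distTriang T)

section one

include hp hC

/-- The unit is not divisible by `p`. -/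
theorem unit_ne (x : 𝟙_ T ⟶ Am D.R 1) : (η[Am D.R 1] : 𝟙_ T ⟶ Am D.R 1) ≠ (p : ℤ) • x := by
  intro h
  obtain ⟨Φ, -⟩ := exists_factor D hp hC 0 (B := ZMod p) (CharP.cast_eq_zero _ p)
    (Cob.ev ((epsChain (ZMod p) p 0).res (fun _ : Fin 1 => (0 : Fin 2))))
  have h1 : (1 : HRing (stdEven T) (Am D.R 1)) =
      (p : ℤ) • HRing.of (stdEven T) (Am D.R 1) 0 ((stdEven T).zero.inv ≫ x) := by
    rw [← map_zsmul, ← of_one, h, Preadditive.comp_zsmul]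
  have h2 := congrArg Φ h1
  rw [map_one, map_zsmul, zsmul_eq_mul, Int.cast_natCast, CharP.cast_eq_zero, zero_mul] at h2
  exact one_ne_zero h2

end one

/-- the unit `X ⟶ R ⊗ X` with an isomorphism -/
def etaS (R : T) [MonObj R] {X Y : T} (κ : X ≅ Y) : X ⟶ R ⊗ Y := κ.hom ≫ (λ_ Y).inv ≫ (η[R] ▷ Y)

theorem etaS_comp {R R' : T} [MonObj R] [MonObj R'] (f : R ⟶ R') [IsMonHom f] {X Y : T}
    (κ : X ≅ Y) : etaS R κ ≫ (f ▷ Y) = etaS R' κ := by
  unfold etaS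
  rw [Category.assoc, Category.assoc, ← comp_whiskerRight, IsMonHom.one_hom]

theorem etaS_ne (hdiv : ∀ x : 𝟙_ T ⟶ Am D.R 1, (η[Am D.R 1] : 𝟙_ T ⟶ Am D.R 1) ≠ (p : ℤ) • x)
    {X : T} {r : ℤ} (κ : X ≅ (stdEven T).S r) (x : X ⟶ Am D.R 1 ⊗ (stdEven T).S r) :
    etaS (Am D.R 1) κ ≠ (p : ℤ) • x := by
  intro h
  obtain ⟨y, hy⟩ := (whiskerRight_bijective ((stdEven T).S r) (𝟙_ T) (Am D.R 1)).2
    ((λ_ _).hom ≫ κ.inv ≫ x)
  apply hdiv y
  apply (whiskerRight_bijective ((stdEven T).S r) (𝟙_ T) (Am D.R 1)).1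
  have h1 : (η[Am D.R 1] ▷ (stdEven T).S r) = (λ_ _).hom ≫ κ.inv ≫ etaS (Am D.R 1) κ := by
    unfold etaS
    simp
  change η[Am D.R 1] ▷ (stdEven T).S r = ((p : ℤ) • y) ▷ (stdEven T).S r
  have hy' : y ▷ (stdEven T).S r = (λ_ _).hom ≫ κ.inv ≫ x := hy
  rw [h1, h, Preadditive.comp_zsmul, Preadditive.comp_zsmul, ← hy']
  exact ((tensorRight ((stdEven T).S r)).map_zsmul).symm

theorem noTor_rhoF {K : T} [MonObj K] [IsCommMonObj K] (o1 : Vale.Agent.P251.Q.Orientation (thK e K))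
    {n : ℤ} (h : NoTor (thK e K) n RR) :
    NoTor (thK e K) n ((rhoF p (Fin p)).obj ⊗ RR) := by
  have h2 : NoTor (thK e K) n (Vale.Agent.P251.Q.CP (Fin p) ⊗ RR) :=
    h.cp o1 (I := Fin p) (Fintype.card_fin p)
  exact NoTor.tot (E := thK e K) o1 (B := Vale.Agent.P251.Q.CP (Fin p)) (rhoG p (Fin p))
    (rhoG_isRank hpp.out.ne_zero (Fin p)) h2

include hev hp hC

/-- **No Thom class modulo `p`.** -/
theorem noThom {Z : FCat} (κ : F.S.obj Z ≅ (stdEven T).S p) (j : Z ⟶ rhoF p (Fin p))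
    (b : Gr 1 (Fin p)) (hj : ∀ z : Z.obj, ∃ x : (rhoG p (Fin p)).E,
      app j.hom (z : OnePoint Z.obj) = (x : OnePoint (rhoG p (Fin p)).E) ∧ Bun.base x = b)
    (ϑ : F.S.obj (rhoF p (Fin p)) ⟶ F.S.obj Z ⊗ C) :
    F.S.map j ≫ ϑ ≠ (redC i).app (F.S.obj Z) := by
  intro hϑ
  let o1 : Vale.Agent.P251.Q.Orientation (thK e (Am D.R 1)) := amO e D.R o (0 : Fin 1)
  let f0 : (Am D.R 1) ⟶ (Am D.R 2) := Am.map D.R (fun _ : Fin 1 => (0 : Fin 2))
  let f1 : (Am D.R 1) ⟶ (Am D.R 2) := Am.map D.R (fun _ : Fin 1 => (1 : Fin 2))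
  have hf0 : IsMonHom f0 := inferInstance
  have hf1 : IsMonHom f1 := inferInstance
  -- the lift
  have hnt : NT (p : ℤ) (F.S.obj (rhoF p (Fin p))) (((Am D.R 1) ⊗ (stdEven T).S p)⟦(1 : ℤ)⟧) := by
    have h1 : NoTor (thK e (Am D.R 1)) (p : ℤ) RR := noTor_RR e D hp hC 0
    exact nt_susp e (rhoF p (Fin p)) (noTor_rhoF e o1 h1) p
  obtain ⟨y, hy⟩ := exists_lift_of_torsionFree hC hnt (ϑ ≫ (etaS (Am D.R 1) κ ▷ C))
  -- the restriction to the fibre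
  obtain ⟨x0, hx0⟩ : ∃ x0 : F.S.obj Z ⟶ (Am D.R 1) ⊗ (stdEven T).S p,
      (p : ℤ) • x0 = F.S.map j ≫ y - etaS (Am D.R 1) κ := by
    apply exists_zsmul_of_red hC
    rw [Preadditive.sub_comp, Category.assoc, hy, ← Category.assoc, hϑ, sub_eq_zero]
    exact ((redC i).naturality (etaS (Am D.R 1) κ)).symm
  -- the two units
  obtain ⟨w0, hw0⟩ : ∃ w0 : F.S.obj (rhoF p (Fin p)) ⟶ (Am D.R 2) ⊗ (stdEven T).S p,
      (p : ℤ) • w0 = y ≫ (f0 ▷ _) - y ≫ (f1 ▷ _) := by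
    apply exists_zsmul_of_red hC
    have h1 : ∀ (f : (Am D.R 1) ⟶ (Am D.R 2)) [IsMonHom f], (y ≫ (f ▷ (stdEven T).S p)) ≫
        (redC i).app ((Am D.R 2) ⊗ (stdEven T).S p) = ϑ ≫ (etaS (Am D.R 2) κ ▷ C) := by
      intro f _
      have h2 : (f ▷ (stdEven T).S p) ≫ (redC i).app ((Am D.R 2) ⊗ (stdEven T).S p) =
          (redC i).app ((Am D.R 1) ⊗ (stdEven T).S p) ≫ ((f ▷ (stdEven T).S p) ▷ C) :=
        (redC i).naturality (f ▷ (stdEven T).S p)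
      rw [Category.assoc, h2, reassoc_of% hy, ← comp_whiskerRight, etaS_comp]
    rw [Preadditive.sub_comp, h1 f0, h1 f1, sub_self]
  -- the classes
  set u : (thK e (Am D.R 1)).U (rhoF p (Fin p)).obj := cl e (Am D.R 1) (rhoF p (Fin p)) (p : ℤ) y with hu
  have hdiff : (thKHom e f0).app _ u - (thKHom e f1).app _ u =
      (p : ℤ) • cl e (Am D.R 2) (rhoF p (Fin p)) (p : ℤ) w0 := by
    rw [hu, cl_hom, cl_hom, ← map_sub, ← hw0, map_zsmul]
  obtain ⟨a, ha, hua⟩ := exists_coeff o1 (Fintype.card_fin p) (rhoG p (Fin p))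
    (rhoG_isRank hpp.out.ne_zero (Fin p)) (cl_mem e (rhoF p (Fin p)) (p : ℤ) y)
  have hua' : u = o1.phi (Z := Vale.Agent.P251.Q.CP (Fin p)) (rhoG p (Fin p))
    (rhoG_isRank hpp.out.ne_zero (Fin p)) (∑ i : Fin p, a i • o1.z (Fin p) ^ (i : ℕ)) := hua
  -- the coefficients
  have hKp : CharP (DualNumber (ZMod p)) p := by
    refine (CharP.charP_iff_prime_eq_zero hpp.out).2 ?_
    have h1 : ((p : ℕ) : DualNumber (ZMod p)) =
        algebraMap (ZMod p) (DualNumber (ZMod p)) ((p : ℕ) : ZMod p) := (map_natCast _ _).symm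
    rw [h1, CharP.cast_eq_zero, map_zero]
  obtain ⟨Φ, hl, hc, hΦ⟩ := exists_Phi e D o hev hp hC (DualNumber (ZMod p)) DualNumber.eps
  have hL : (thKHom e f0).push o1 = amO e D.R o (0 : Fin 2) :=
    amO_map e D.R o (fun _ : Fin 1 => (0 : Fin 2)) 0
  have hR : (thKHom e f1).push o1 = amO e D.R o (1 : Fin 2) :=
    amO_map e D.R o (fun _ : Fin 1 => (1 : Fin 2)) 0
  rw [hua'] at hdiff
  have hkey := key (thKHom e f0) (thKHom e f1) o1 p DualNumber.eps Φ DualNumber.eps_mul_eps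
    (by rw [hL]; exact hl) (by rw [hL, hR]; exact hc) a hdiff
  have hpK : ∀ x : DualNumber (ZMod p), (p : ℤ) • x = 0 := by
    intro x
    rw [zsmul_eq_mul, Int.cast_natCast, CharP.cast_eq_zero, zero_mul]
  -- the coefficient `a (p - 1)`
  obtain ⟨z1, b1, hz1, ha1⟩ := exists_oEv_add e D o hev hp hC 0 (ha (p - 1))
  have hw1 : ((p - 1 : ℕ) : ℤ) ≠ 0 := by
    have := hpp.out.two_le
    omega
  have h0 : ∀ α : Fin 1 → Fin 2, Φ ((thKHom e (Am.map D.R α)).mapA (a (p - 1))) = 0 := by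
    intro α
    rw [ha1, map_add, map_add, map_zsmul, map_zsmul, hpK, add_zero]
    exact (hΦ α z1).trans (ev_epsChain_res _ p _ α hw1 hz1)
  -- the coefficient `a 0`
  obtain ⟨z0, b0, hz0, ha0⟩ := exists_oEv_add e D o hev hp hC 0 (w := 0) (ha 0)
  obtain ⟨m, rfl⟩ := exists_int_of_isWt_zero hz0
  have h2 : Φ ((thKHom e f1).mapA (a 0)) = (m : DualNumber (ZMod p)) := by
    rw [ha0, map_add, map_add, map_zsmul, map_zsmul, hpK, add_zero, map_intCast, map_intCast,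
      map_intCast]
  have h3 : DualNumber.eps * (m : DualNumber (ZMod p)) = 0 := by
    have h4 := hkey
    rw [h0, h0, h2, zero_sub, eq_comm, neg_eq_zero] at h4
    exact h4
  have h5 : (m : ZMod p) = 0 := by
    have h6 := congrArg TrivSqZeroExt.snd h3
    simpa using h6
  obtain ⟨m', rfl⟩ := (ZMod.intCast_zmod_eq_zero_iff_dvd m p).1 h5
  -- conclusion
  have ha0' : a 0 = (p : ℤ) • ((m' : (thK e (Am D.R 1)).A) + b0) := by
    rw [ha0, map_intCast, smul_add]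
    congr 1
    rw [zsmul_eq_mul]
    push_cast
    ring
  have hG : (thK e (Am D.R 1)).Good Z.obj :=
    Vale.Agent.P251.Q.MultTheory.Good.of_FC _ Z.property
  have hfib := map_fibre_cp o1 (rhoG p (Fin p)) (rhoG_isRank hpp.out.ne_zero (Fin p)) j.hom b hj
    hpp.out.ne_zero a
  have hu' : (thK e (Am D.R 1)).map j.hom u = cl e (Am D.R 1) Z (p : ℤ) (F.S.map j ≫ y) :=
    cl_map e j (p : ℤ) y
  rw [hua'] at hu'
  have h7 := hu'.symm.trans hfib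
  rw [ha0', smul_assoc] at h7
  have h8 := congrArg (cmpt e (Am D.R 1) Z (p : ℤ)) h7
  rw [cmpt_cl, map_zsmul] at h8
  have h9 : etaS (Am D.R 1) κ = F.S.map j ≫ y - (p : ℤ) • x0 := by
    rw [hx0]
    abel
  obtain ⟨t, ht⟩ : ∃ t : F.S.obj Z ⟶ Am D.R 1 ⊗ (stdEven T).S p,
    F.S.map j ≫ y = (p : ℤ) • t := ⟨_, h8⟩
  exact etaS_ne D (unit_ne D hp hC) κ (t - x0) (by rw [h9, ht, smul_sub])

end Vale.Agent.P257.H763
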