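import Vale.Agent.P257.H763.RhoG
import Vale.Agent.P251.F.LazPoly
import Mathlib.Algebra.DualNumber

/-!
# P257: algebra of the ratio of `ρ` for the chain `x ↦ x + ε x^p` of additive laws
-/

open Vale.Agent.P217 Vale.Agent.P251.F Vale.Agent.P251.Q

noncomputable section

namespace Vale.Agent.P257.H763

section char

variable {K : Type*} [CommRing K] (p : ℕ) [hp : Fact p.Prime] (ε : K)

/-- the strict series `x + ε x^p` -/
def epsS : InvSeries K := strictMk fun m => if m + 2 = p then ε else 0

theorem epsS_val : (epsS p ε).val = PowerSeries.X + PowerSeries.C ε * PowerSeries.X ^ p := by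
  have h2 := hp.out.two_le
  ext n
  rw [map_add, PowerSeries.coeff_C_mul, PowerSeries.coeff_X_pow]
  rcases n with _ | n
  · rw [PowerSeries.coeff_zero_eq_constantCoeff_apply, (epsS p ε).cc,
      PowerSeries.coeff_zero_eq_constantCoeff_apply, PowerSeries.constantCoeff_X,
      if_neg (by omega)]
    simp
  · change (epsS p ε).c n = _
    rcases n with _ | n
    · rw [epsS, c_zero_strictMk, PowerSeries.coeff_one_X, if_neg (by omega)]
      simp
    · rw [epsS, c_succ_strictMk, PowerSeries.coeff_X, if_neg (show ¬ n + 1 + 1 = 1 by omega)]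
      split_ifs with h1
      · simp
      · simp

theorem subst_epsS {τ : Type*} [Finite τ] {a : MvPowerSeries τ K} (ha : a.constantCoeff = 0) :
    PowerSeries.subst a (epsS p ε).val = a + MvPowerSeries.C ε * a ^ p := by
  have h : PowerSeries.HasSubst a := PowerSeries.HasSubst.of_constantCoeff_zero ha
  rw [epsS_val, PowerSeries.subst_add h, PowerSeries.subst_mul h, PowerSeries.subst_pow h,
    PowerSeries.subst_X h, PowerSeries.subst_C]

theorem subst_pair_add {τ : Type*} [Finite τ] {a b : MvPowerSeries τ K}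
    (ha : a.constantCoeff = 0) (hb : b.constantCoeff = 0) :
    MvPowerSeries.subst ![a, b] (addLaw K).ps = a + b := by
  have hs : MvPowerSeries.HasSubst ![a, b] := by
    refine MvPowerSeries.hasSubst_of_constantCoeff_zero fun i => ?_
    fin_cases i
    · exact ha
    · exact hb
  rw [addLaw_ps, MvPowerSeries.subst_add hs, MvPowerSeries.subst_X hs, MvPowerSeries.subst_X hs]
  simp

theorem epsS_smul [CharP K p] : epsS p ε • addLaw K = addLaw K := by
  rw [InvSeries.smul_eq_iff_isHom]
  refine ⟨(epsS p ε).cc, ?_⟩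
  have h0 : (MvPowerSeries.X 0 + MvPowerSeries.X 1 : MvPowerSeries (Fin 2) K).constantCoeff =
    0 := by simp
  have hn : Nontrivial K := CharP.nontrivial_of_char_ne_one hp.out.ne_one
  have hc : CharP (MvPowerSeries (Fin 2) K) p := by
    refine (CharP.charP_iff_prime_eq_zero hp.out).2 ?_
    rw [← map_natCast (MvPowerSeries.C (σ := Fin 2) (R := K)), CharP.cast_eq_zero, map_zero]
  have e1 := subst_epsS p ε (a := (MvPowerSeries.X 0 : MvPowerSeries (Fin 2) K)) (by simp)
  have e2 := subst_epsS p ε (a := (MvPowerSeries.X 1 : MvPowerSeries (Fin 2) K)) (by simp)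
  have e0 := subst_epsS p ε h0
  have e3 : (addLaw K).toFG.toPowerSeries = MvPowerSeries.X 0 + MvPowerSeries.X 1 := rfl
  rw [e1, e2, e3, e0, ← e3]
  rw [subst_pair_add (by simp [hp.out.ne_zero]) (by simp [hp.out.ne_zero]), e3,
    add_pow_char]
  ring

theorem multSeries_addLaw (m : ℕ) :
    multSeries (addLaw K).toFG m = PowerSeries.C (m : K) * PowerSeries.X := by
  induction m with
  | zero =>
    have : multSeries (addLaw K).toFG 0 = 0 := rfl
    rw [this]
    simp
  | succ m ih =>
    rw [multSeries_succ, ih]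
    have h1 := subst_pair_add (K := K) (τ := Unit) (a := PowerSeries.C (m : K) * PowerSeries.X)
      (b := PowerSeries.X) (by
        change PowerSeries.constantCoeff (PowerSeries.C (m : K) * PowerSeries.X) = 0
        simp) PowerSeries.constantCoeff_X
    refine h1.trans ?_
    push_cast
    rw [map_add, map_one]
    ring

theorem cast_pow_sub_one [CharP K p] {m : ℕ} (hm : 0 < m) (hm' : m < p) :
    ((m : ℕ) : K) ^ (p - 1) = 1 := by
  have h1 : ((m : ℕ) : ZMod p) ≠ 0 := by
    rw [Ne, ZMod.natCast_eq_zero_iff]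
    intro h
    exact absurd (Nat.le_of_dvd hm h) (by omega)
  have h2 := ZMod.pow_card_sub_one_eq_one h1
  have h3 := congrArg (ZMod.castHom (dvd_refl p) K) h2
  rw [map_pow, map_natCast, map_one] at h3
  exact h3

omit hp in
theorem one_add_pow {R : Type*} [CommRing R] {y : R} (hy : y * y = 0) (n : ℕ) :
    (1 + y) ^ n = 1 + n * y := by
  induction n with
  | zero => simp
  | succ n ih =>
    rw [pow_succ, ih]
    push_cast
    linear_combination (n : R) * hy

theorem prod_eps [CharP K p] (hε : ε * ε = 0) :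
    ∏ i : Fin (p - 1), (1 + PowerSeries.C ε *
      (PowerSeries.C (((i : ℕ) + 1 : ℕ) : K) * PowerSeries.X) ^ (p - 1)) =
      1 - PowerSeries.C ε * PowerSeries.X ^ (p - 1) := by
  have h1 : ∀ i : Fin (p - 1), (1 + PowerSeries.C ε *
      (PowerSeries.C (((i : ℕ) + 1 : ℕ) : K) * PowerSeries.X) ^ (p - 1)) =
      1 + PowerSeries.C ε * PowerSeries.X ^ (p - 1) := by
    intro i
    rw [mul_pow, ← map_pow, cast_pow_sub_one p (Nat.succ_pos _) (by have := i.2; omega), map_one,
      one_mul]
  rw [Finset.prod_congr rfl fun i _ => h1 i, Finset.prod_const, Finset.card_univ,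
    Fintype.card_fin, one_add_pow]
  · have h2 : ((p - 1 : ℕ) : PowerSeries K) = -1 := by
      have h3 : ((p - 1 : ℕ) : K) = -1 := by
        rw [Nat.cast_sub hp.out.one_le, CharP.cast_eq_zero, Nat.cast_one, zero_sub]
      rw [← map_natCast (PowerSeries.C (R := K)), h3, map_neg, map_one]
    rw [h2]
    ring
  · have h4 : PowerSeries.C ε * PowerSeries.C ε = (0 : PowerSeries K) := by
      rw [← map_mul, hε, map_zero]
    linear_combination PowerSeries.X ^ (p - 1) * PowerSeries.X ^ (p - 1) * h4

/-- the coefficient of `X^{p-1}` of the right hand side -/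
theorem coeff_rhs (b : ℕ → K) :
    PowerSeries.coeff (p - 1) ((1 - PowerSeries.C ε * PowerSeries.X ^ (p - 1)) *
      ∑ i : Fin p, PowerSeries.C (b i) * (epsS p ε).val ^ (i : ℕ)) = b (p - 1) - ε * b 0 := by
  have h2 := hp.out.two_le
  obtain ⟨q, rfl⟩ : ∃ q, p = q + 1 := ⟨p - 1, by omega⟩
  have key : ∀ n < q + 1, PowerSeries.coeff n (∑ i : Fin (q + 1), PowerSeries.C (b i) *
      (epsS (q + 1) ε).val ^ (i : ℕ)) = b n := by
    intro n hn
    rw [map_sum]
    have h3 : ∀ i : Fin (q + 1), PowerSeries.coeff n (PowerSeries.C (b i) *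
        (epsS (q + 1) ε).val ^ (i : ℕ)) = if (i : ℕ) = n then b n else 0 := by
      intro i
      have h4 : PowerSeries.X ^ (q + 1) ∣ (epsS (q + 1) ε).val ^ (i : ℕ) -
          PowerSeries.X ^ (i : ℕ) := by
        refine Dvd.dvd.trans ?_ (sub_dvd_pow_sub_pow _ _ _)
        rw [epsS_val, add_sub_cancel_left]
        exact Dvd.intro_left _ rfl
      have h5 := PowerSeries.X_pow_dvd_iff.1 h4 n hn
      rw [map_sub, sub_eq_zero] at h5
      rw [PowerSeries.coeff_C_mul, h5, PowerSeries.coeff_X_pow]
      by_cases h6 : (i : ℕ) = n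
      · rw [if_pos h6, if_pos h6.symm, mul_one, h6]
      · rw [if_neg h6, if_neg (Ne.symm h6), mul_zero]
    rw [Finset.sum_congr rfl fun i _ => h3 i, Finset.sum_eq_single (⟨n, hn⟩ : Fin (q + 1))]
    · rw [if_pos rfl]
    · intro i _ hi
      rw [if_neg fun h => hi (Fin.ext h)]
    · intro h
      exact absurd (Finset.mem_univ _) h
  rw [Nat.add_sub_cancel, sub_mul, one_mul, map_sub, key q (by omega), mul_assoc,
    PowerSeries.coeff_C_mul, PowerSeries.coeff_X_pow_mul', if_pos le_rfl, Nat.sub_self,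
    key 0 (by omega)]

end char

section rho

open Vale.Agent.P251.M (coordO z_one_eq)

universe v

variable {E : MultTheory.{v}} (o o' : Orientation E) {K : Type*} [CommRing K] (p : ℕ)
  [hp : Fact p.Prime] (ε : K) (Φ : E.A →+* K)

theorem map_cmpH (h : InvSeries.map Φ (cmpS o o') = epsS p ε) :
    PowerSeries.map Φ (cmpH o o') = 1 + PowerSeries.C ε * PowerSeries.X ^ (p - 1) := by
  have h1 : PowerSeries.map Φ (cmpH o o') * PowerSeries.X =
      (1 + PowerSeries.C ε * PowerSeries.X ^ (p - 1)) * PowerSeries.X := by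
    have h2 := congrArg (PowerSeries.map Φ) (cmpH_mul_X o o')
    rw [map_mul, PowerSeries.map_X] at h2
    have h3 : PowerSeries.map Φ (cmpS o o').val = (epsS p ε).val := congrArg InvSeries.val h
    rw [h2, h3, epsS_val, add_mul, one_mul, mul_assoc, ← pow_succ,
      Nat.sub_add_cancel hp.out.one_le]
  ext n
  have h4 := congrArg (PowerSeries.coeff (n + 1)) h1
  rwa [PowerSeries.coeff_succ_mul_X, PowerSeries.coeff_succ_mul_X] at h4

theorem map_rhoS [CharP K p] (hε : ε * ε = 0) (hl : o.law.map Φ = addLaw K)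
    (h : InvSeries.map Φ (cmpS o o') = epsS p ε) :
    PowerSeries.map Φ (rhoS o o' p) = 1 - PowerSeries.C ε * PowerSeries.X ^ (p - 1) := by
  rw [rhoS, map_prod, ← prod_eps p ε hε]
  refine Finset.prod_congr rfl fun i _ => ?_
  have h0 : PowerSeries.HasSubst (multSeries o.law.toFG ((i : ℕ) + 1)) :=
    hasSubst_of_cc (constantCoeff_multSeries _ _)
  have h1 : PowerSeries.map Φ (multSeries o.law.toFG ((i : ℕ) + 1)) =
      PowerSeries.C (((i : ℕ) + 1 : ℕ) : K) * PowerSeries.X := by
    rw [map_multSeries, ← Law.map_toFG, hl, multSeries_addLaw]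
  have h2 : PowerSeries.HasSubst (PowerSeries.C (((i : ℕ) + 1 : ℕ) : K) * PowerSeries.X) :=
    hasSubst_of_cc (by
      change PowerSeries.constantCoeff (PowerSeries.C (((i : ℕ) + 1 : ℕ) : K) *
        PowerSeries.X) = 0
      simp)
  have h3 : PowerSeries.map Φ (PowerSeries.subst (multSeries o.law.toFG ((i : ℕ) + 1))
      (cmpH o o')) = PowerSeries.subst
        (PowerSeries.map Φ (multSeries o.law.toFG ((i : ℕ) + 1)))
        (PowerSeries.map Φ (cmpH o o')) := PowerSeries.map_subst h0 _
  have h4 : (1 : PowerSeries K) = PowerSeries.C 1 := (map_one _).symm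
  rw [h3, h1, map_cmpH o o' p ε Φ h, PowerSeries.subst_add h2,
    PowerSeries.subst_mul h2, PowerSeries.subst_pow h2, PowerSeries.subst_X h2,
    PowerSeries.subst_C, h4, PowerSeries.subst_C]
  rfl

end rho

section free

variable {A S K : Type*} [CommRing A] [CommRing S] [Algebra A S] [CommRing K] (Φ : A →+* K)

/-- comparison of coefficients modulo `p` -/
theorem coeff_eq_of_nev1 {p : ℕ} (hpK : (p : K) = 0) {n : ℕ} {z : S} (hz : z ^ n = 0)
    (hfree : Function.Bijective fun a : Fin n → A => ∑ i, a i • z ^ (i : ℕ))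
    {F G : PowerSeries A} {w : S} (h : nev1 z F - nev1 z G = (p : ℤ) • w) {i : ℕ} (hi : i < n) :
    Φ (PowerSeries.coeff i F) = Φ (PowerSeries.coeff i G) := by
  obtain ⟨c, rfl⟩ := hfree.2 w
  rw [nev1_eq_sum hz, nev1_eq_sum hz, Finset.sum_range, Finset.sum_range] at h
  have h1 : (fun i : Fin n => PowerSeries.coeff (i : ℕ) F) =
      fun i : Fin n => PowerSeries.coeff (i : ℕ) G + (p : ℤ) • c i := by
    apply hfree.1
    change ∑ i : Fin n, PowerSeries.coeff (i : ℕ) F • z ^ (i : ℕ) =
      ∑ i : Fin n, (PowerSeries.coeff (i : ℕ) G + (p : ℤ) • c i) • z ^ (i : ℕ)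
    rw [sub_eq_iff_eq_add] at h
    rw [h, Finset.smul_sum, ← Finset.sum_add_distrib]
    refine Finset.sum_congr rfl fun i _ => ?_
    rw [add_smul, add_comm, smul_assoc]
  have h2 := congrFun h1 ⟨i, hi⟩
  simp only at h2
  rw [h2, map_add, map_zsmul, zsmul_eq_mul, Int.cast_natCast, hpK, zero_mul, add_zero]

end free

end Vale.Agent.P257.H763
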