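import Vale.Agent.P257.H763.PhiO

/-!
# P257: classes of the theory of a commutative monoid as morphisms

`cl X k x : (thK e K).U X` for `x : Σ X ⟶ K ⊗ S^{2k}`, and its inverse `cmpt X k`.
-/

open CategoryTheory MonoidalCategory Limits Pretriangulated MonObj
open Vale.Agent.P251.G Vale.Agent.P251.G.LC Vale.Agent.P251.I Vale.Agent.P251.T
open Vale.Agent.P251.F Vale.Agent.P251.S Vale.Agent.P251.M

universe v u

set_option linter.unusedSectionVars false

noncomputable section

namespace Vale.Agent.P257.H763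

variable {T : Type u} [Category.{v} T] [Preadditive T] [HasZeroObject T]
    [HasShift T ℤ] [∀ n : ℤ, (shiftFunctor T n).Additive] [Pretriangulated T]
    [MonoidalCategory T] [SymmetricCategory T] [TensorTriangulated T]
  {S : EvenSpheres T} {F : SpaceFunctor T} (e : F.S.obj CCF ≅ S.L)
  (K : T) [MonObj K] [IsCommMonObj K]

/-- the additive equivalence `H^k(X) ≃ Hom(X, K ⊗ S^{2k})` -/
def hqE (k : ℤ) (X : T) : (RSys K S).H k X ≃+ (X ⟶ K ⊗ S.S k) :=
  AddEquiv.ofBijective (hq K S k X) (hq_bijective k X)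

/-- The class of a morphism. -/
def cl (X : FCat) (k : ℤ) : (F.S.obj X ⟶ K ⊗ S.S k) →+ (thK e K).U X.obj :=
  (umk X.property).comp (((RSys K S).tof (F.S.obj X) k).comp
    (hqE K k (F.S.obj X)).symm.toAddMonoidHom)

/-- The component of a class. -/
def cmpt (X : FCat) (k : ℤ) : (thK e K).U X.obj →+ (F.S.obj X ⟶ K ⊗ S.S k) :=
  (hq K S k (F.S.obj X)).comp ((DFinsupp.evalAddMonoidHom k :
    (RSys K S).Tot (F.S.obj X) →+ (RSys K S).H k (F.S.obj X)).comp (uev X.property))

variable {K}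

theorem cl_def (X : FCat) (k : ℤ) (x : F.S.obj X ⟶ K ⊗ S.S k) :
    cl e K X k x = umk X.property ((RSys K S).tof (F.S.obj X) k
      ((hqE K k (F.S.obj X)).symm x)) := rfl

theorem cmpt_apply (X : FCat) (k : ℤ) (u : (thK e K).U X.obj) :
    cmpt e K X k u = hq K S k (F.S.obj X) ((uev X.property u : (RSys K S).Tot (F.S.obj X)) k) :=
  rfl

theorem cmpt_cl (X : FCat) (k : ℤ) (x : F.S.obj X ⟶ K ⊗ S.S k) :
    cmpt e K X k (cl e K X k x) = x := by
  rw [cmpt_apply, cl_def, uev_umk]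
  change hq K S k _ ((DirectSum.of _ k ((hqE K k (F.S.obj X)).symm x) :
    (RSys K S).Tot (F.S.obj X)) k) = x
  rw [DirectSum.of_eq_same]
  exact (hqE K k (F.S.obj X)).apply_symm_apply x

theorem ext_cmpt (X : FCat) {u u' : (thK e K).U X.obj}
    (h : ∀ k, cmpt e K X k u = cmpt e K X k u') : u = u' := by
  apply uev_inj X.property
  apply DFinsupp.ext
  intro k
  exact (hq_bijective k (F.S.obj X)).1 (h k)

theorem cl_mem (X : FCat) (k : ℤ) (x : F.S.obj X ⟶ K ⊗ S.S k) :
    cl e K X k x ∈ (thK e K).deg X.obj k := (mem_udeg X.property).mpr (MSys.tof_mem_tdeg _)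

theorem cl_map {X Y : FCat} (f : X ⟶ Y) (k : ℤ) (x : F.S.obj Y ⟶ K ⊗ S.S k) :
    (thK e K).map f.hom (cl e K Y k x) = cl e K X k (F.S.map f ≫ x) := by
  apply uev_inj X.property
  have h1 : uev X.property ((thK e K).map f.hom (cl e K Y k x)) =
      (RSys K S).tpull (F.S.map f) (uev Y.property (cl e K Y k x)) :=
    uev_umap X.property Y.property f.hom _
  rw [h1, cl_def, cl_def, uev_umk, uev_umk, MSys.tpull_of]
  congr 1
  apply (hqE K k (F.S.obj X)).injective
  rw [AddEquiv.apply_symm_apply]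
  change hq K S k _ ((RSys K S).pull k (F.S.map f) _) = _
  rw [hq_pull]
  congr 1
  exact (hqE K k (F.S.obj Y)).apply_symm_apply x

variable {K' : T} [MonObj K'] [IsCommMonObj K']

theorem cl_hom (f : K ⟶ K') [IsMonHom f] (X : FCat) (k : ℤ) (x : F.S.obj X ⟶ K ⊗ S.S k) :
    (thKHom e f).app X.obj (cl e K X k x) = cl e K' X k (x ≫ (f ▷ S.S k)) := by
  apply uev_inj X.property
  change ((SeqMonoid.Hom.const f).msys S).tmap _ (uev X.property (cl e K X k x)) = _
  rw [cl_def, cl_def, uev_umk, uev_umk, MSys.Hom.tmap_of]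
  congr 1
  apply (hqE K' k (F.S.obj X)).injective
  rw [AddEquiv.apply_symm_apply]
  change hq K' S k _ (((SeqMonoid.Hom.const f).msys S).hmap k _ _) = _
  rw [hq_hmap]
  congr 1
  exact (hqE K k (F.S.obj X)).apply_symm_apply x

/-- no `p`-torsion -/
theorem noTor_iff (X : FCat) (n : ℤ) : (∀ u : (thK e K).U X.obj, n • u = 0 → u = 0) ↔
    ∀ k (x : F.S.obj X ⟶ K ⊗ S.S k), n • x = 0 → x = 0 := by
  constructor
  · intro h k x hx
    have h1 := h (cl e K X k x) (by rw [← map_zsmul, hx, map_zero])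
    rw [← cmpt_cl e X k x, h1, map_zero]
  · intro h u hu
    apply ext_cmpt
    intro k
    rw [map_zero]
    apply h
    rw [← map_zsmul, hu, map_zero]

end Vale.Agent.P257.H763
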