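import Vale.Agent.P257.H763.Alg
import Vale.Agent.P251.M.ThHom

/-!
# P257: the comparison of coefficients of `X^{p-1}`
-/

open CategoryTheory MonoidalCategory OnePoint Matrix Topology
open Vale.Agent.P251.G Vale.Agent.P251.G.LC Vale.Agent.P251.G.Bun Vale.Agent.P251.Q
open Vale.Agent.P251.Q.MultTheory Vale.Agent.P217 Vale.Agent.P251.F

universe v w

noncomputable section

namespace Vale.Agent.P257.H763

section push

variable {E : MultTheory.{v}} {E' : MultTheory.{w}} (φ : MultTheory.Hom E E')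

theorem push_phi (o : Orientation E) {Z : LC} [E.Good Z] {ι : Type} [Fintype ι] {n : ℕ}
    (V : Bun Z ι) [E.Good V.tot] (hV : V.IsRank n) (u : E.U Z) :
    (φ.push o).phi V hV (φ.app _ u) = φ.app _ (o.phi V hV u) := by
  have := o.goodTh
  rw [phi_apply, phi_apply, MultTheory.Hom.push_tau, φ.app_map, φ.app_cross]

theorem push_z' (o : Orientation E) (I : Type) [Fintype I] :
    (φ.push o).z I = φ.app _ (o.z I) := by
  have := good_gr_one o I
  have := o.goodTh
  unfold Orientation.z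
  rw [φ.app_map]
  rfl

end push

section key

variable {E : MultTheory.{v}} {E' : MultTheory.{w}} (φL φR : MultTheory.Hom E E')
  (o : Orientation E) {K : Type*} [CommRing K] (p : ℕ) [hp : Fact p.Prime] [CharP K p] (ε : K)
  (Φ : E'.A →+* K)

/-- **The comparison of the coefficients of `X^{p-1}`.** -/
theorem key (hε : ε * ε = 0) (hl : (φL.push o).law.map Φ = addLaw K)
    (hc : InvSeries.map Φ (cmpS (φL.push o) (φR.push o)) = epsS p ε)
    (a : ℕ → E.A) {w : E'.U (rhoG p (Fin p)).tot}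
    (hw : φL.app _ (o.phi (Z := CP (Fin p)) (rhoG p (Fin p)) (rhoG_isRank hp.out.ne_zero (Fin p))
        (∑ i : Fin p, a i • o.z (Fin p) ^ (i : ℕ))) -
      φR.app _ (o.phi (Z := CP (Fin p)) (rhoG p (Fin p)) (rhoG_isRank hp.out.ne_zero (Fin p))
        (∑ i : Fin p, a i • o.z (Fin p) ^ (i : ℕ))) = (p : ℤ) • w) :
    Φ (φL.mapA (a (p - 1))) = Φ (φR.mapA (a (p - 1))) - ε * Φ (φR.mapA (a 0)) := by
  set oL := φL.push o with hoL
  set oR := φR.push o with hoR
  have hr := rhoG_isRank hp.out.ne_zero (Fin p)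
  have happ : ∀ φ : MultTheory.Hom E E', φ.app (CP (Fin p))
      (∑ i : Fin p, a i • o.z (Fin p) ^ (i : ℕ)) =
      ∑ i : Fin p, φ.mapA (a i) • (φ.push o).z (Fin p) ^ (i : ℕ) := by
    intro φ
    have h0 : ∀ x, φ.app (CP (Fin p)) x = φ.mapU (CP (Fin p)) x := fun _ => rfl
    rw [map_sum]
    refine Finset.sum_congr rfl fun i _ => ?_
    rw [φ.app_smul, h0, map_pow, ← h0, push_z']
  have happ' : ∀ φ : MultTheory.Hom E E',
      φ.app _ (o.phi (Z := CP (Fin p)) (rhoG p (Fin p)) (rhoG_isRank hp.out.ne_zero (Fin p))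
        (∑ i : Fin p, a i • o.z (Fin p) ^ (i : ℕ))) =
      (φ.push o).phi (Z := CP (Fin p)) (rhoG p (Fin p)) hr
        (∑ i : Fin p, φ.mapA (a i) • (φ.push o).z (Fin p) ^ (i : ℕ)) := by
    intro φ
    rw [← happ φ]
    exact (push_phi φ o (Z := CP (Fin p)) (rhoG p (Fin p)) hr _).symm
  rw [happ', happ', ← hoL, ← hoR] at hw
  have h1 := ratio_rhoG oL oR hp.out.ne_zero (Fin p)
    (∑ i : Fin p, φR.mapA (a i) • oR.z (Fin p) ^ (i : ℕ))
  rw [h1] at hw
  obtain ⟨w', hw'⟩ := (phi_bijective oL (Z := CP (Fin p)) (rhoG p (Fin p)) hr).2 w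
  have h2 : (∑ i : Fin p, φL.mapA (a i) • oL.z (Fin p) ^ (i : ℕ)) -
      nev1 (oL.z (Fin p)) (rhoS oL oR p) *
        ∑ i : Fin p, φR.mapA (a i) • oR.z (Fin p) ^ (i : ℕ) = (p : ℤ) • w' := by
    apply (phi_bijective oL (Z := CP (Fin p)) (rhoG p (Fin p)) hr).1
    rw [map_sub, map_zsmul, hw']
    exact hw
  have hz := z_pow_eq_zero oL p (Fin p) (by simp)
  have hnil : IsNilpotent (oL.z (Fin p)) := isNilpotent_z oL
  set F : PowerSeries E'.A := ∑ i : Fin p, PowerSeries.C (φL.mapA (a i)) *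
    PowerSeries.X ^ (i : ℕ) with hF
  set G : PowerSeries E'.A := rhoS oL oR p * ∑ i : Fin p, PowerSeries.C (φR.mapA (a i)) *
    (cmpS oL oR).val ^ (i : ℕ) with hG
  have nsum : ∀ f : Fin p → PowerSeries E'.A, nev1 (oL.z (Fin p)) (∑ i, f i) =
      ∑ i, nev1 (oL.z (Fin p)) (f i) := by
    intro f
    exact map_sum (AddMonoidHom.mk' (fun g => nev1 (oL.z (Fin p)) g)
      (fun a b => nev1_add hnil a b)) f Finset.univ
  have hF' : nev1 (oL.z (Fin p)) F = ∑ i : Fin p, φL.mapA (a i) • oL.z (Fin p) ^ (i : ℕ) := by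
    rw [hF, nsum]
    refine Finset.sum_congr rfl fun i _ => ?_
    rw [nev1_mul hnil, nev1_C hnil, nev1_pow hnil, nev1_X hnil, Algebra.smul_def]
  have hG' : nev1 (oL.z (Fin p)) G = nev1 (oL.z (Fin p)) (rhoS oL oR p) *
      ∑ i : Fin p, φR.mapA (a i) • oR.z (Fin p) ^ (i : ℕ) := by
    rw [hG, nev1_mul hnil, nsum]
    congr 1
    refine Finset.sum_congr rfl fun i _ => ?_
    rw [nev1_mul hnil, nev1_C hnil, nev1_pow hnil, ← z_cmp oL oR, Algebra.smul_def]
  rw [← hF', ← hG'] at h2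
  have hK : ((p : ℕ) : K) = 0 := CharP.cast_eq_zero K p
  have h3 := coeff_eq_of_nev1 Φ hK hz
    (freeOn_z oL p (Fin p) (Fintype.card_fin _)).bijective_smul h2
    (i := p - 1) (by have := hp.out.two_le; omega)
  have h4 : PowerSeries.map Φ G = (1 - PowerSeries.C ε * PowerSeries.X ^ (p - 1)) *
      ∑ i : Fin p, PowerSeries.C (Φ (φR.mapA (a i))) * (epsS p ε).val ^ (i : ℕ) := by
    rw [hG, map_mul, map_rhoS oL oR p ε Φ hε hl hc, map_sum]
    congr 1
    refine Finset.sum_congr rfl fun i _ => ?_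
    have h5 : PowerSeries.map Φ (cmpS oL oR).val = (epsS p ε).val := congrArg InvSeries.val hc
    rw [map_mul, map_pow, h5, PowerSeries.map_C]
  have h6 : Φ (PowerSeries.coeff (p - 1) G) = Φ (φR.mapA (a (p - 1))) - ε *
      Φ (φR.mapA (a 0)) := by
    rw [← PowerSeries.coeff_map, h4]
    exact coeff_rhs p ε fun i => Φ (φR.mapA (a i))
  have h7 : PowerSeries.coeff (p - 1) F = φL.mapA (a (p - 1)) := by
    have h2 := hp.out.two_le
    rw [hF, map_sum, Finset.sum_eq_single (⟨p - 1, by omega⟩ : Fin p)]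
    · simp
    · intro i _ hi
      rw [PowerSeries.coeff_C_mul, PowerSeries.coeff_X_pow, if_neg, mul_zero]
      intro h
      exact hi (Fin.ext h.symm)
    · intro h
      exact absurd (Finset.mem_univ _) h
  rw [← h6, ← h3, h7]

end key

end Vale.Agent.P257.H763
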