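import Vale.Agent.P257.H763.Cl
import Vale.Agent.P251.Q.LensThom

/-!
# P257: lifting of classes modulo `p` of Thom spaces over projective spaces
-/

open CategoryTheory MonoidalCategory Limits Pretriangulated MonObj
open Vale.Agent.P251.G Vale.Agent.P251.G.LC Vale.Agent.P251.I Vale.Agent.P251.T
open Vale.Agent.P251.F Vale.Agent.P251.S Vale.Agent.P251.M

universe v u

set_option linter.unusedSectionVars false

noncomputable section

namespace Vale.Agent.P257.H763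

/-! ### Torsion in the theory of spaces -/

section theory

open Vale.Agent.P251.Q Vale.Agent.P251.Q.MultTheory

variable (E : MultTheory.{v}) (n : ℤ)

/-- `E.U X` has no `n`-torsion. -/
def NoTor (X : LC) : Prop := ∀ u : E.U X, n • u = 0 → u = 0

variable {E n}

theorem NoTor.of_surj {X Y : LC} (f : E.U X →+ E.U Y) (hf : Function.Bijective f)
    (h : NoTor E n X) : NoTor E n Y := by
  intro y hy
  obtain ⟨x, rfl⟩ := hf.2 y
  rw [h x (hf.1 (by rw [map_zsmul, hy, map_zero])), map_zero]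

theorem NoTor.cp (o : Orientation E) {N : ℕ} {I : Type} [Fintype I] (hN : Fintype.card I = N)
    {X : LC} [E.Good X] (h : NoTor E n X) : NoTor E n (CP I ⊗ X) := by
  intro y hy
  obtain ⟨u, rfl⟩ := (freeOn_z_left o hN X).2 y
  have h1 : (fun i => n • u i) = (fun _ => 0 : Fin N → E.U X) := by
    apply (freeOn_z_left o hN X).1
    change ∑ i : Fin N, E.cross (o.z I ^ (i : ℕ)) (n • u i) =
      ∑ i : Fin N, E.cross (o.z I ^ (i : ℕ)) 0
    rw [Finset.sum_congr rfl fun (i : Fin N) _ => map_zero (E.cross (o.z I ^ (i : ℕ))),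
      Finset.sum_const_zero, ← hy]
    change _ = n • ∑ i : Fin N, E.cross (o.z I ^ (i : ℕ)) (u i)
    rw [Finset.smul_sum]
    exact Finset.sum_congr rfl fun i _ => map_zsmul _ _ _
  have h2 : u = fun _ => 0 := funext fun i => h _ (congrFun h1 i)
  rw [h2]
  change ∑ i : Fin N, E.cross (o.z I ^ (i : ℕ)) 0 = 0
  exact Finset.sum_eq_zero fun i _ => map_zero _

theorem NoTor.tot (o : Orientation E) {B : LC} [CompactSpace B] [E.Good B] {J : Type} [Fintype J]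
    {r : ℕ} (W : Bun B J) [E.Good W.tot] (hW : W.IsRank r) {Z : LC} [E.Good Z]
    (h : NoTor E n (B ⊗ Z)) : NoTor E n (W.tot ⊗ Z) :=
  NoTor.of_surj _ (thom_bijective o W hW Z) h

end theory

/-! ### Torsion in groups of morphisms -/

section NT

variable {T : Type u} [Category.{v} T] [Preadditive T] [HasZeroObject T]
    [HasShift T ℤ] [∀ n : ℤ, (shiftFunctor T n).Additive] [Pretriangulated T]
    [MonoidalCategory T] [SymmetricCategory T] [TensorTriangulated T]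

/-- `Hom(X, Y)` has no `n`-torsion. -/
def NT (n : ℤ) (X Y : T) : Prop := ∀ g : X ⟶ Y, n • g = 0 → g = 0

variable {n : ℤ} {X Y X' Y' : T}

theorem NT.iso (h : NT n X Y) (a : X ≅ X') (b : Y ≅ Y') : NT n X' Y' := by
  intro g hg
  have h1 : n • (a.hom ≫ g ≫ b.inv) = 0 := by
    rw [← Preadditive.comp_zsmul, ← Preadditive.zsmul_comp, hg, zero_comp, comp_zero]
  have h2 := h _ h1
  have h3 : g = a.inv ≫ (a.hom ≫ g ≫ b.inv) ≫ b.hom := by simp
  rw [h3, h2, zero_comp, comp_zero]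

theorem NT.unshift (c : ℤ) (h : NT n (X⟦c⟧) (Y⟦c⟧)) : NT n X Y := by
  intro g hg
  apply (shiftFunctor T c).map_injective
  rw [Functor.map_zero]
  apply h
  rw [← Functor.map_zsmul, hg, Functor.map_zero]

theorem NT.of_surj {C : T} {i : 𝟙_ T ⟶ C} {δ : C ⟶ (𝟙_ T)⟦(1 : ℤ)⟧}
    (hC : Triangle.mk (n • 𝟙 (𝟙_ T)) i δ ∈ distTriang T)
    (h : ∀ f : X ⟶ Y ⊗ C, ∃ g : X ⟶ Y, f = g ≫ (redC i).app Y) : NT n X (Y⟦(1 : ℤ)⟧) := by
  intro g hg
  obtain ⟨f, hf⟩ : ∃ f : X ⟶ Y ⊗ C, g = f ≫ bdC δ Y := by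
    refine Triangle.coyoneda_exact₃ _ (rot_of_distTriang _ (redTri_distinguished hC Y)) g ?_
    change g ≫ (-(n • 𝟙 Y)⟦(1 : ℤ)⟧') = 0
    rw [Functor.map_zsmul, CategoryTheory.Functor.map_id, Preadditive.comp_neg,
      Preadditive.comp_zsmul, Category.comp_id, hg, neg_zero]
  obtain ⟨g', rfl⟩ := h f
  have h1 := comp_distTriang_mor_zero₂₃ _ (redTri_distinguished hC Y)
  change (redC i).app Y ≫ bdC δ Y = 0 at h1
  rw [hf, Category.assoc, h1, comp_zero]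

/-- `X ⊗ S^{2k} ≅ X⟦2k⟧` -/
def shS (X : T) (k : ℤ) : X ⊗ (stdEven T).S k ≅ X⟦2 * k⟧ :=
  ((stdEven T).shiftNat (Iso.refl _) k).app X

/-- `S^{2k} ≅ 𝟙⟦2k⟧` -/
def sphS (k : ℤ) : (stdEven T).S k ≅ (𝟙_ T)⟦2 * k⟧ := (stdEven T).sphIso (Iso.refl _) k

end NT

variable {T : Type u} [Category.{v} T] [Preadditive T] [HasZeroObject T]
    [HasShift T ℤ] [∀ n : ℤ, (shiftFunctor T n).Additive] [Pretriangulated T]
    [MonoidalCategory T] [SymmetricCategory T] [TensorTriangulated T] [HasCoproducts.{0} T]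
  {F : SpaceFunctor T} (e : F.S.obj CCF ≅ (stdEven T).L)
  (D : MUData T)
  {p : ℕ} [hpp : Fact p.Prime] (hp : p ≠ 2) {C : T} {i : 𝟙_ T ⟶ C}
  {δ : C ⟶ (𝟙_ T)⟦(1 : ℤ)⟧} (hC : Triangle.mk ((p : ℤ) • 𝟙 (𝟙_ T)) i δ ∈ distTriang T)

section

include hp hC

theorem nt_line (s : ℕ) (k : ℤ) : NT (p : ℤ) (F.S.obj RRF) (Am D.R (s + 1) ⊗ (stdEven T).S k) := by
  have h1 : NT (p : ℤ) ((stdEven T).S (1 - k)) ((Am D.R (s + 1))⟦(1 : ℤ)⟧) := by
    refine NT.of_surj hC fun f => ?_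
    obtain ⟨z, a, -, -, h⟩ := D.surj p hp s C i δ hC (1 - k) f
    exact ⟨a, h⟩
  refine NT.unshift (1 - 2 * k) (h1.iso ?_ ?_)
  · exact sphS (1 - k) ≪≫ (shiftFunctorAdd' T 1 (1 - 2 * k) (2 * (1 - k)) (by ring)).app (𝟙_ T) ≪≫
      (shiftFunctor T (1 - 2 * k)).mapIso F.line.symm
  · exact (shiftFunctorAdd' T (2 * k) (1 - 2 * k) 1 (by ring)).app (Am D.R (s + 1)) ≪≫
      (shiftFunctor T (1 - 2 * k)).mapIso (shS (Am D.R (s + 1)) k).symm

theorem noTor_RR (s : ℕ) : NoTor (thK e (Am D.R (s + 1))) (p : ℤ) RR :=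
  (noTor_iff e RRF (p : ℤ)).2 fun k => nt_line D hp hC s k

end

/-- Torsion in the cohomology of `X × ℝ`. -/
theorem nt_susp {K : T} [MonObj K] [IsCommMonObj K] {n : ℤ} (X : FCat)
    (h : NoTor (thK e K) n (X.obj ⊗ RR)) (r : ℤ) :
    NT n (F.S.obj X) ((K ⊗ (stdEven T).S r)⟦(1 : ℤ)⟧) := by
  have h1 : NT n (F.S.obj (X ⊗ RRF)) (K ⊗ (stdEven T).S (r + 1)) :=
    (noTor_iff e (X ⊗ RRF) n).1 h (r + 1)
  refine NT.unshift 1 (h1.iso (F.suspIso X) ?_)
  exact shS K (r + 1) ≪≫ (shiftFunctorAdd' T (2 * r + 1) 1 (2 * (r + 1)) (by ring)).app K ≪≫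
    (shiftFunctor T (1 : ℤ)).mapIso ((shiftFunctorAdd' T (2 * r) 1 (2 * r + 1) rfl).app K ≪≫
      (shiftFunctor T (1 : ℤ)).mapIso (shS K r).symm)

end Vale.Agent.P257.H763
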