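import Vale.Agent.P257.H763.Key
import Vale.Agent.P251.M.MUFinal
import Vale.Agent.P251.S.ModP
import Vale.Agent.P251.F.Grade

/-!
# P257: ring homomorphisms out of the homotopy ring of `R^{⊗ (s+1)}`, modulo `p`

For `D : MUData T`: every ring homomorphism `Cob Laz s → B` to a ring with `p = 0` extends along
`D.ev s : Cob Laz s → π_{2*} (R^{⊗ (s+1)})`.
-/

open CategoryTheory MonoidalCategory Limits Pretriangulated MonObj
open Vale.Agent.P251.G Vale.Agent.P251.G.LC Vale.Agent.P251.I Vale.Agent.P251.T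
open Vale.Agent.P251.F Vale.Agent.P251.S Vale.Agent.P251.M

universe v u

noncomputable section

namespace Vale.Agent.P257.H763

variable {T : Type u} [Category.{v} T] [Preadditive T] [HasZeroObject T]
    [HasShift T ℤ] [∀ n : ℤ, (shiftFunctor T n).Additive] [Pretriangulated T]
    [MonoidalCategory T] [SymmetricCategory T] [TensorTriangulated T] [HasCoproducts.{0} T]
  (D : MUData T) {p : ℕ} [Fact p.Prime] (hp : p ≠ 2) {C : T} {i : 𝟙_ T ⟶ C}
  {δ : C ⟶ (𝟙_ T)⟦(1 : ℤ)⟧} (hC : Triangle.mk ((p : ℤ) • 𝟙 (𝟙_ T)) i δ ∈ distTriang T)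

include hp hC

/-- Every homotopy class is the value of a function, modulo `p`. -/
theorem exists_ev_add (s : ℕ) (w : ℤ) (x : (stdEven T).S w ⟶ Am D.R (s + 1)) :
    ∃ (z : Cob Laz s) (b : (stdEven T).S w ⟶ Am D.R (s + 1)), Cob.IsWt w z ∧
      HRing.of (stdEven T) (Am D.R (s + 1)) w x =
        D.ev s z + (p : ℤ) • HRing.of (stdEven T) (Am D.R (s + 1)) w b := by
  obtain ⟨z, a, hz, ha, h⟩ := D.surj p hp s C i δ hC w
    (x ≫ (ρ_ (Am D.R (s + 1))).inv ≫ (Am D.R (s + 1) ◁ i))
  have h1 : (x - a) ≫ (redC i).app (Am D.R (s + 1)) = 0 := by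
    rw [redC_app, Preadditive.sub_comp, h, sub_self]
  obtain ⟨b, hb⟩ := exists_zsmul_of_red hC _ h1
  refine ⟨z, b, hz, ?_⟩
  rw [ha, ← map_zsmul, ← map_add, hb]
  congr 1
  abel

theorem ker_ev (s : ℕ) (z : Cob Laz s) (h : HRing (stdEven T) (Am D.R (s + 1)))
    (hz : D.ev s z = (p : ℤ) • h) : ∃ y : Cob Laz s, z = (p : ℤ) • y := by
  choose a ha using fun w => D.ev_wt s w (Cob.proj w z) (Cob.isWt_proj w z)
  have h1 : ∀ w ∈ Cob.wts z, ∃ y : Cob Laz s, Cob.proj w z = (p : ℤ) • y := by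
    intro w hw
    have h2 : D.ev s z = ∑ v ∈ Cob.wts z, HRing.of (stdEven T) (Am D.R (s + 1)) v (a v) := by
      conv_lhs => rw [← Cob.sum_proj z, map_sum]
      exact Finset.sum_congr rfl fun v _ => ha v
    have h3 : a w = (p : ℤ) • (h w) := by
      have h4 := DFunLike.congr_fun (h2.symm.trans hz) w
      rw [DFinsupp.finsetSum_apply, Finset.sum_eq_single w] at h4
      · rw [DirectSum.of_eq_same] at h4
        exact h4
      · intro v _ hv
        exact DirectSum.of_eq_of_ne _ _ _ (Ne.symm hv)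
      · intro h
        exact absurd hw h
    have h5 : a w ≫ (redC i).app (Am D.R (s + 1)) = 0 := by
      rw [h3]
      exact zsmul_comp_red hC _
    obtain ⟨y, -, hy⟩ := D.ker p hp s C i δ hC w _ (Cob.isWt_proj w z) (a w) (ha w) h5
    exact ⟨y, hy⟩
  choose! y hy using h1
  refine ⟨∑ w ∈ Cob.wts z, y w, ?_⟩
  conv_lhs => rw [← Cob.sum_proj z]
  rw [Finset.smul_sum]
  exact Finset.sum_congr rfl hy

/-- Every element of the homotopy ring is the value of a function, modulo `p`. -/
theorem exists_ev_add' (s : ℕ) (x : HRing (stdEven T) (Am D.R (s + 1))) :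
    ∃ (z : Cob Laz s) (b : HRing (stdEven T) (Am D.R (s + 1))), x = D.ev s z + (p : ℤ) • b := by
  induction x using DirectSum.induction_on with
  | zero => exact ⟨0, 0, by simp⟩
  | of w x =>
    obtain ⟨z, b, -, h⟩ := exists_ev_add D hp hC s w x
    exact ⟨z, _, h⟩
  | add x x' h h' =>
    obtain ⟨z, b, rfl⟩ := h
    obtain ⟨z', b', rfl⟩ := h'
    refine ⟨z + z', b + b', ?_⟩
    rw [map_add, smul_add]
    abel

/-- Ring homomorphisms out of the homotopy ring, modulo `p`. -/
theorem exists_factor (s : ℕ) {B : Type*} [CommRing B] (hB : (p : B) = 0) (c : Cob Laz s →+* B) :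
    ∃ Φ : HRing (stdEven T) (Am D.R (s + 1)) →+* B, ∀ z, Φ (D.ev s z) = c z := by
  have hpB : ∀ b : B, (p : ℤ) • b = 0 := fun b => by
    rw [zsmul_eq_mul, Int.cast_natCast, hB, zero_mul]
  have hex := exists_ev_add' D hp hC s
  choose ζ β hζ using hex
  have huniq : ∀ (x : HRing (stdEven T) (Am D.R (s + 1))) (z : Cob Laz s)
      (b : HRing (stdEven T) (Am D.R (s + 1))), x = D.ev s z + (p : ℤ) • b → c (ζ x) = c z := by
    intro x z b h
    have h1 : D.ev s (ζ x - z) = (p : ℤ) • (b - β x) := by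
      have h2 := (hζ x).symm.trans h
      rw [map_sub, smul_sub, sub_eq_sub_iff_add_eq_add, h2]
      exact add_comm _ _
    obtain ⟨y, hy⟩ := ker_ev D hp hC s _ _ h1
    have h3 := congrArg c hy
    rw [map_sub, map_zsmul, hpB, sub_eq_zero] at h3
    exact h3
  refine ⟨{ toFun := fun x => c (ζ x)
            map_one' := ?_
            map_mul' := ?_
            map_zero' := ?_
            map_add' := ?_ }, ?_⟩
  · rw [huniq 1 1 0 (by simp), map_one]
  · intro x y
    rw [← map_mul]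
    refine huniq _ _ (D.ev s (ζ x) * β y + β x * D.ev s (ζ y) + (p : ℤ) • (β x * β y)) ?_
    conv_lhs => rw [hζ x, hζ y]
    simp only [map_mul, zsmul_eq_mul]
    ring
  · rw [huniq 0 0 0 (by simp), map_zero]
  · intro x y
    change c (ζ (x + y)) = c (ζ x) + c (ζ y)
    rw [← map_add]
    refine huniq _ _ (β x + β y) ?_
    conv_lhs => rw [hζ x, hζ y]
    simp only [map_add, smul_add]
    abel
  · intro z
    exact huniq _ z 0 (by simp)

end Vale.Agent.P257.H763
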