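import Vale.Agent.P257.H763.Alg
import Vale.Agent.P251.M.Strict
import Vale.Agent.P251.F.WtProj

/-!
# P257: functions of positive weight vanish on the additive law
-/

open Vale.Agent.P217 Vale.Agent.P251.F Vale.Agent.P251.M

noncomputable section

namespace Vale.Agent.P257.H763

theorem lin_smul_addLaw {K : Type*} [CommRing K] (u : Kˣ) :
    InvSeries.lin u • addLaw K = addLaw K := by
  rw [InvSeries.smul_eq_iff_isHom]
  refine ⟨(InvSeries.lin u).cc, ?_⟩
  have hval : (InvSeries.lin u).val = PowerSeries.C (u : K) * PowerSeries.X := rfl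
  have hs : ∀ {a : MvPowerSeries (Fin 2) K}, a.constantCoeff = 0 →
      PowerSeries.subst a (InvSeries.lin u).val = MvPowerSeries.C (u : K) * a := by
    intro a ha
    have h : PowerSeries.HasSubst a := PowerSeries.HasSubst.of_constantCoeff_zero ha
    rw [hval, PowerSeries.subst_mul h, PowerSeries.subst_X h, PowerSeries.subst_C]
  have e3 : (addLaw K).toFG.toPowerSeries = MvPowerSeries.X 0 + MvPowerSeries.X 1 := rfl
  have h0 : MvPowerSeries.constantCoeff (MvPowerSeries.X 0 : MvPowerSeries (Fin 2) K) = 0 := by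
    simp
  have h1 : MvPowerSeries.constantCoeff (MvPowerSeries.X 1 : MvPowerSeries (Fin 2) K) = 0 := by
    simp
  have h2 : MvPowerSeries.constantCoeff
      (MvPowerSeries.X 0 + MvPowerSeries.X 1 : MvPowerSeries (Fin 2) K) = 0 := by
    simp
  rw [hs h0, hs h1, e3, hs h2, ← e3,
    subst_pair_add (by simp) (by simp), e3, mul_add]

theorem scale_addLaw {K : Type} [CommRing K] (c : Chain Laz 0 K)
    (hc : Laz.univ.map c.pt = addLaw K) (u : Kˣ) : c.scale u = c := by
  ext1
  · change LawRing.act (InvSeries.lin u)⁻¹ c.pt = c.pt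
    have h : (InvSeries.lin u)⁻¹ • addLaw K = addLaw K := by
      conv_lhs => rw [← lin_smul_addLaw u, inv_smul_smul]
    rw [Laz.act_eq, hc, h, ← hc, Laz.lift_map_univ]
  · funext i
    have hi : i = 0 := by omega
    subst hi
    rw [(c.scale u).zero, c.zero]

/-- Functions of weight `w ≠ 0` vanish at the additive law. -/
theorem ev_addLaw {K : Type} [CommRing K] (c : Chain Laz 0 K)
    (hc : Laz.univ.map c.pt = addLaw K) {w : ℤ} (hw : w ≠ 0) {z : Cob Laz 0}
    (hz : Cob.IsWt w z) : Cob.ev c z = 0 := by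
  have hc' : Laz.univ.map (c.map (LaurentPolynomial.C : K →+* LaurentPolynomial K)).pt =
      addLaw (LaurentPolynomial K) := by
    rw [Chain.map_pt, ← Law.map_map, hc, map_addLaw]
  have h1 := hz _ (c.map (LaurentPolynomial.C : K →+* LaurentPolynomial K)) (tU K)
  rw [scale_addLaw _ hc', Cob.ev_map, tU_zpow] at h1
  have h2 := congrArg (fun q : LaurentPolynomial K => q.coeff w) h1
  beta_reduce at h2
  rw [mul_comm, coeff_C_mul_TW, if_pos rfl] at h2
  have h3 := coeff_C_mul_TW (Cob.ev c z) 0 w
  rw [LaurentPolynomial.T_zero, mul_one, if_neg (Ne.symm hw)] at h3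
  exact h2.symm.trans h3

end Vale.Agent.P257.H763
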