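import Vale.Agent.P251.F.LazWt
import Vale.Agent.P251.F.LazPoly
import Vale.Agent.P251.F.Grade

/-!
# P257: the functions of weight zero on `Laz` are the integers
-/

open Vale.Agent.P217 Vale.Agent.P251.F

noncomputable section

namespace Vale.Agent.P257.H763

/-- the span of the homogeneous functions of positive weight -/
def posG : AddSubgroup (Cob Laz 0) :=
  AddSubgroup.closure {y | ∃ w : ℕ, 0 < w ∧ Cob.IsWt (w : ℤ) y}

theorem posG_mul_x {y : Cob Laz 0} (hy : y ∈ posG) (n : ℕ) :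
    y * MvPolynomial.C (Laz.x n) ∈ posG := by
  induction hy using AddSubgroup.closure_induction with
  | mem y hy =>
    obtain ⟨w, hw, hy⟩ := hy
    refine AddSubgroup.subset_closure ⟨w + (n + 1), by omega, ?_⟩
    have := hy.mul (Laz.isWt_x n)
    push_cast at this ⊢
    exact this
  | zero => rw [zero_mul]; exact posG.zero_mem
  | add x y _ _ hx hy => rw [add_mul]; exact posG.add_mem hx hy
  | neg x _ hx => rw [neg_mul]; exact posG.neg_mem hx

theorem proj_zero_of_mem_posG {y : Cob Laz 0} (hy : y ∈ posG) : Cob.proj 0 y = 0 := by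
  rw [← Cob.projHom_apply]
  induction hy using AddSubgroup.closure_induction with
  | mem y hy =>
    obtain ⟨w, hw, hy⟩ := hy
    rw [Cob.projHom_apply, Cob.proj_of_isWt hy, if_neg (by omega)]
  | zero => exact map_zero _
  | add x y _ _ hx hy => rw [map_add, hx, hy, add_zero]
  | neg x _ hx => rw [map_neg, hx, neg_zero]

theorem exists_int_add (q : MvPolynomial ℕ ℤ) :
    ∃ m : ℤ, ∃ y ∈ posG, (MvPolynomial.C (Laz.polyHom q) : Cob Laz 0) = (m : Cob Laz 0) + y := by
  induction q using MvPolynomial.induction_on with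
  | C a =>
    refine ⟨a, 0, posG.zero_mem, ?_⟩
    rw [add_zero, ← map_intCast (MvPolynomial.C : Laz →+* Cob Laz 0)]
    congr 1
    rw [← map_intCast Laz.polyHom]
    simp
  | add p q hp hq =>
    obtain ⟨m, y, hy, h⟩ := hp
    obtain ⟨m', y', hy', h'⟩ := hq
    refine ⟨m + m', y + y', posG.add_mem hy hy', ?_⟩
    rw [map_add, map_add, h, h']
    push_cast
    ring
  | mul_X p n hp =>
    obtain ⟨m, y, hy, h⟩ := hp
    refine ⟨0, (m : Cob Laz 0) * MvPolynomial.C (Laz.x n) + y * MvPolynomial.C (Laz.x n), ?_, ?_⟩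
    · refine posG.add_mem ?_ (posG_mul_x hy n)
      have h1 : (MvPolynomial.C (Laz.x n) : Cob Laz 0) ∈ posG :=
        AddSubgroup.subset_closure ⟨n + 1, by omega, Laz.isWt_x n⟩
      have h2 := posG.zsmul_mem h1 m
      rwa [zsmul_eq_mul] at h2
    · rw [map_mul, Laz.polyHom_X, map_mul, h]
      push_cast
      ring

/-- Functions of weight zero are integers. -/
theorem exists_int_of_isWt_zero {z : Cob Laz 0} (hz : Cob.IsWt 0 z) :
    ∃ m : ℤ, z = (m : Cob Laz 0) := by
  obtain ⟨a, rfl⟩ : ∃ a : Laz, z = MvPolynomial.C a := ⟨_, MvPolynomial.eq_C_of_isEmpty z⟩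
  obtain ⟨q, rfl⟩ := Laz.polyHom_surjective a
  obtain ⟨m, y, hy, h⟩ := exists_int_add q
  refine ⟨m, ?_⟩
  have h1 := Cob.proj_of_isWt hz 0
  rw [if_pos rfl, h, Cob.proj_add, proj_zero_of_mem_posG hy, add_zero] at h1
  have h2 : Cob.IsWt 0 ((m : ℤ) : Cob Laz 0) := by
    have := (Cob.isWt_one (N := Laz) (n := 0)).zsmul m
    rwa [zsmul_eq_mul, mul_one] at this
  rw [Cob.proj_of_isWt h2, if_pos rfl] at h1
  rw [h, ← h1]

end Vale.Agent.P257.H763
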