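import Vale.Agent.P257.H763.Phi
import Vale.Agent.P257.H763.Wt
import Vale.Agent.P257.H763.WtZero

/-!
# P257: the ring homomorphism `Φ` on the coefficients of the theory of `R ⊗ R`
-/

open CategoryTheory MonoidalCategory Limits Pretriangulated MonObj
open Vale.Agent.P251.G Vale.Agent.P251.G.LC Vale.Agent.P251.I Vale.Agent.P251.T
open Vale.Agent.P251.F Vale.Agent.P251.S Vale.Agent.P251.M

universe v u

set_option linter.unusedSectionVars false

noncomputable section

namespace Vale.Agent.P257.H763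

section chain

variable (K : Type) [CommRing K] (p : ℕ) [hp : Fact p.Prime] (ε : K)

/-- the chain `addLaw → addLaw` given by `x + ε x^p` -/
def epsChain : Chain Laz 1 K where
  pt := Laz.lift (addLaw K)
  g := Fin.cons 1 fun _ => epsS p ε
  strict := by
    intro i
    refine Fin.cases ?_ (fun i => ?_) i
    · rw [Fin.cons_zero]
      exact one_mem _
    · rw [Fin.cons_succ]
      exact strictMk_mem _
  zero := Fin.cons_zero _ _

theorem epsChain_g_one : (epsChain K p ε).g 1 = epsS p ε := rfl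

theorem epsChain_law : Laz.univ.map (epsChain K p ε).pt = addLaw K := Laz.univ_map_lift _

theorem epsChain_g_smul [CharP K p] (i : Fin 2) : (epsChain K p ε).g i • addLaw K = addLaw K := by
  refine Fin.cases ?_ (fun i => ?_) i
  · rw [(epsChain K p ε).zero, one_smul]
  · exact epsS_smul p ε

theorem epsChain_res_law [CharP K p] (α : Fin 1 → Fin 2) :
    Laz.univ.map ((epsChain K p ε).res α).pt = addLaw K := by
  rw [Chain.res_pt, Laz.act_eq, Laz.univ_map_lift, epsChain_law, epsChain_g_smul]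

theorem ev_epsChain_res [CharP K p] (α : Fin 1 → Fin 2) {w : ℤ} (hw : w ≠ 0) {z : Cob Laz 0}
    (hz : Cob.IsWt w z) : Cob.ev ((epsChain K p ε).res α) z = 0 :=
  ev_addLaw _ (epsChain_res_law K p ε α) hw hz

end chain

variable {T : Type u} [Category.{v} T] [Preadditive T] [HasZeroObject T]
    [HasShift T ℤ] [∀ n : ℤ, (shiftFunctor T n).Additive] [Pretriangulated T]
    [MonoidalCategory T] [SymmetricCategory T] [TensorTriangulated T] [HasCoproducts.{0} T]
  {F : SpaceFunctor T} (e : F.S.obj CCF ≅ (stdEven T).L)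
  (D : MUData T) (o : Vale.Agent.P251.Q.Orientation (thK e D.R)) (hev : ∀ s, D.ev s = amEv e D.R o s)
  {p : ℕ} [hpp : Fact p.Prime] (hp : p ≠ 2) {C : T} {i : 𝟙_ T ⟶ C}
  {δ : C ⟶ (𝟙_ T)⟦(1 : ℤ)⟧} (hC : Triangle.mk ((p : ℤ) • 𝟙 (𝟙_ T)) i δ ∈ distTriang T)

include hev hp hC

/-- Every coefficient is the value of a function, modulo `p`. -/
theorem exists_oEv_add (s : ℕ) {w : ℤ} {a : (thK e (Am D.R (s + 1))).A}
    (ha : a ∈ (thK e (Am D.R (s + 1))).degA (-w)) :
    ∃ (z : Cob Laz s) (b : (thK e (Am D.R (s + 1))).A), Cob.IsWt w z ∧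
      a = oEv (fun j : Fin (s + 1) => amO e D.R o j) z + (p : ℤ) • b := by
  obtain ⟨x, hx⟩ := coefK_deg e (neg_add_cancel w) ha
  obtain ⟨z, b, hz, h⟩ := exists_ev_add D hp hC s w x
  obtain ⟨b', hb'⟩ := (coefK_bijective e (Am D.R (s + 1))).2
    (HRing.of (stdEven T) (Am D.R (s + 1)) w b)
  refine ⟨z, b', hz, ?_⟩
  apply (coefK_bijective e (Am D.R (s + 1))).1
  rw [map_add, map_zsmul, hb', hx, h, hev]
  rfl

/-- The ring homomorphism `Φ`. -/
theorem exists_Phi (K : Type) [CommRing K] [CharP K p] (ε : K) :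
    ∃ Φ : (thK e (Am D.R 2)).A →+* K,
      ((amO e D.R o (0 : Fin 2)).law.map Φ = addLaw K) ∧
      (InvSeries.map Φ (cmpS (amO e D.R o (0 : Fin 2)) (amO e D.R o (1 : Fin 2))) =
        epsS p ε) ∧
      (∀ (α : Fin 1 → Fin 2) (z : Cob Laz 0), Φ ((thKHom e (Am.map D.R α)).mapA
        (oEv (fun j : Fin 1 => amO e D.R o j) z)) = Cob.ev ((epsChain K p ε).res α) z) := by
  obtain ⟨Φ, hΦ⟩ := exists_factor D hp hC 1 (CharP.cast_eq_zero K p) (Cob.ev (epsChain K p ε))
  have hΦ' : ∀ z : Cob Laz 1, (Φ.comp (coefK e (Am D.R 2)))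
      (oEv (fun j : Fin 2 => amO e D.R o j) z) = Cob.ev (epsChain K p ε) z := by
    intro z
    rw [← hΦ z, hev]
    rfl
  have hch : (oChain fun j : Fin 2 => amO e D.R o j).map (Φ.comp (coefK e (Am D.R 2))) =
      LChain.ofChain (epsChain K p ε) := by
    rw [← LChain.univ_map_ev (LChain.map (Φ.comp (coefK e (Am D.R 2)))
      (oChain fun j : Fin 2 => amO e D.R o j)), ← LChain.univ_map_ev
      (LChain.ofChain (epsChain K p ε))]
    congr 1
    apply RingHom.ext
    intro z
    rw [← LChain.map_ev, LChain.ev_ofChain]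
    exact hΦ' z
  refine ⟨Φ.comp (coefK e (Am D.R 2)), ?_, ?_, ?_⟩
  · exact (congrArg LChain.law hch).trans (epsChain_law K p ε)
  · exact congrFun (congrArg LChain.g hch) 1
  · intro α z
    have h1 : (fun j => (thKHom e (Am.map D.R α)).push (amO e D.R o j)) =
        fun j : Fin 1 => (fun j : Fin 2 => amO e D.R o j) (α j) := by
      funext j
      exact amO_map e D.R o α j
    rw [mapA_oEv, h1, ← oEv_map, hΦ', Cob.ev_map_res]

end Vale.Agent.P257.H763
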