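import Vale.Agent.P251.M.Strict

/-!
# P257: the ratio of the Thom classes of two orientations

For two orientations `o`, `o'` of a multiplicative theory and a bundle `V` over a compact space `B`:
`Ratio o o' V hV r` says `o'.phi V u = o.phi V (r * u)`. It is compatible with pull backs, sums,
isomorphisms; for a line bundle `r = ∑ c_i z^i`.
-/

open CategoryTheory MonoidalCategory OnePoint Matrix Topology
open Vale.Agent.P251.G Vale.Agent.P251.G.LC Vale.Agent.P251.G.Bun Vale.Agent.P251.Q
open Vale.Agent.P251.Q.MultTheory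
open Vale.Agent.P251.M (CPSys coordO z_one_eq mapAlg_z)

universe v

noncomputable section

namespace Vale.Agent.P257.H763

variable {E : MultTheory.{v}} (o o' : Orientation E)

section

variable {B : LC} [CompactSpace B] [E.Good B] {ι κ : Type} [Fintype ι] [Fintype κ] {n m : ℕ}

/-- `r` is the ratio of the two Thom classes of `V`. -/
def Ratio (V : Bun B ι) (hV : V.IsRank n) (r : E.U B) : Prop :=
  ∀ u : E.U B, o'.phi V hV u = o.phi V hV (r * u)

/-- The Thom map is linear over `E.U B`. -/
theorem phi_mul (V : Bun B ι) [E.Good V.tot] (hV : V.IsRank n) (x u : E.U B) :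
    o.phi V hV (x * u) = E.act (tcb V) x (o.phi V hV u) :=
  phi_act o (ContinuousMap.id B) V hV x u

variable {o o'}

theorem ratio_of_thom {V : Bun B ι} [E.Good V.tot] {hV : V.IsRank n} {r : E.U B}
    (h : o'.thom V hV = o.phi V hV r) : Ratio o o' V hV r := by
  intro u
  rw [phi_eq_act_thom, h, ← phi_mul, mul_comm]

theorem Ratio.thom {V : Bun B ι} {hV : V.IsRank n} {r : E.U B} (h : Ratio o o' V hV r) :
    o'.thom V hV = o.phi V hV r := by
  have h1 := h (E.oneU B)
  have h2 : r * E.oneU B = r := mul_one r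
  rwa [h2] at h1

/-- The ratio acts on the Thom maps of all pull backs. -/
theorem Ratio.pull {V : Bun B ι} [E.Good V.tot] {hV : V.IsRank n} {r : E.U B}
    (h : Ratio o o' V hV r) {Z : LC} [E.Good Z] (f : C(Z, B)) [E.Good (V.pullback f).tot]
    (hV' : (V.pullback f).IsRank n) (u : E.U Z) :
    o'.phi (V.pullback f) hV' u = o.phi (V.pullback f) hV' (E.act f r u) := by
  rw [phi_pullback o' f V hV hV', h.thom, phi_eq_act_thom, phi_act o f (V.pullback f) hV' r u,
    phi_pullback o f V hV hV']
  have h0 : E.cross (E.act (tcb V) r (o.thom V hV)) u =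
      E.act ((tcb V).comp (fstC V.tot Z)) r (E.cross (o.thom V hV) u) :=
    (act_cross_left (tcb V) r (o.thom V hV) u).symm
  rw [h0]
  refine map_act (pullMor f V) _ _ ?_ _ _
  intro p q hq
  have h1 : ((V.mkE (f (base p)) (vec p) (P_vec p), base p) : V.E × Z) = q :=
    OnePoint.coe_injective hq
  rw [← h1]
  rfl

/-- The ratio of a pull back. -/
theorem Ratio.pullback {V : Bun B ι} [E.Good V.tot] {hV : V.IsRank n} {r : E.U B}
    (h : Ratio o o' V hV r) {B' : LC} [CompactSpace B'] [E.Good B'] (f : C(B', B))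
    [E.Good (V.pullback f).tot] (hV' : (V.pullback f).IsRank n) :
    Ratio o o' (V.pullback f) hV' (E.map (cmap f) r) := by
  intro u
  rw [h.pull f hV', act_eq_mul]

/-- The ratio of a direct sum. -/
theorem Ratio.sum {V : Bun B ι} {W : Bun B κ} [E.Good V.tot] [E.Good W.tot]
    [E.Good (V.sum W).tot] {hV : V.IsRank n} {hW : W.IsRank m} {r s : E.U B}
    (h : Ratio o o' V hV r) (h' : Ratio o o' W hW s) {k : ℕ} (hk : n + m = k) :
    Ratio o o' (V.sum W) (isRank_sum hV hW hk) (r * s) := by
  intro u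
  have hg : E.Good (W.pullback (⟨base, continuous_base⟩ : C(V.E, B))).tot :=
    MultTheory.Good.of_iso E (sumIso V W)
  have hg' : E.Good (Bun.pullback (X := B) W (tcb V)).tot := hg
  rw [phi_sum o' V W hV hW hk, phi_sum o V W hV hW hk]
  congr 1
  have h1 : o'.phi (Z := V.tot) _ (isRank_pullback_base hW) (o'.phi V hV u) =
      o.phi (Z := V.tot) _ (isRank_pullback_base hW)
        (E.act (tcb V) s (o'.phi V hV u)) := h'.pull (Z := V.tot) (tcb V) _ _
  rw [h1, h u, ← phi_mul, mul_comm r s, mul_assoc]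

/-- The ratio of an isomorphic bundle. -/
theorem Ratio.isom {V : Bun B ι} {W : Bun B κ} [E.Good V.tot] [E.Good W.tot]
    (φ : V.Isom W) (hV : V.IsRank n) {hW : W.IsRank n} {r : E.U B}
    (h : Ratio o o' W hW r) : Ratio o o' V hV r := by
  intro u
  rw [phi_isom o' φ hV hW, phi_isom o φ hV hW, h u]

theorem Ratio.congr_rank {V : Bun B ι} {n' : ℕ} (hn : n = n') {hV : V.IsRank n}
    {hV' : V.IsRank n'} {r : E.U B} (h : Ratio o o' V hV r) : Ratio o o' V hV' r := by
  subst hn; exact h

/-- Bundles of rank zero have ratio one. -/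
theorem ratio_rank_zero (V : Bun B ι) [E.Good V.tot] (hV : V.IsRank 0) :
    Ratio o o' V hV 1 := by
  intro u
  rw [one_mul]
  have h1 : ∀ o : Orientation E, o.euler V hV u = u := fun o => euler_rank_zero o V hV u
  have h2 : ∀ x : E.U V.tot, E.map (zeroMor V) x = 0 → x = 0 := by
    intro x hx
    obtain ⟨y, rfl⟩ := (phi_bijective o V hV).2 x
    have h3 := euler_rank_zero o V hV y
    rw [euler_apply, hx] at h3
    rw [← h3, map_zero]
  have h3 := h2 (o'.phi V hV u - o.phi V hV u) (by
    rw [map_sub, ← euler_apply, ← euler_apply, h1, h1, sub_self])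
  exact sub_eq_zero.mp h3

end

section sigma

variable {o o'} {B : LC} [CompactSpace B]

/-- The ratio of a finite direct sum. -/
theorem Ratio.sigma_fin [hB : GoodBase E B] {k : ℕ} : ∀ {κ : Fin k → Type} [∀ i, Fintype (κ i)]
    (V : ∀ i, Bun B (κ i)) (d : Fin k → ℕ) (hV : ∀ i, (V i).IsRank (d i)) (r : Fin k → E.U B),
    (∀ i, Ratio o o' (V i) (hV i) (r i)) →
    Ratio o o' (Bun.sigma V) (IsRank.sigma hV) (∏ i, r i) := by
  induction k with
  | zero =>
    intro κ _ V d hV r h
    have := hB.tot _ (IsRank.sigma hV)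
    have h0 : (∑ i : Fin 0, d i) = 0 := by simp
    have h1 : (Bun.sigma V).IsRank 0 := h0.subst (motive := fun n => (Bun.sigma V).IsRank n)
      (IsRank.sigma hV)
    have h2 : (∏ i : Fin 0, r i) = 1 := by simp
    rw [h2]
    exact (ratio_rank_zero (Bun.sigma V) h1).congr_rank h0.symm
  | succ k ih =>
    intro κ hκ V d hV r h
    have hA : (Bun.sigma fun i : Fin k => V i.castSucc).IsRank (∑ i : Fin k, d i.castSucc) :=
      IsRank.sigma fun i : Fin k => hV i.castSucc
    have h1 := hB.tot _ (IsRank.sigma hV)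
    have h2 := hB.tot _ hA
    have h3 := hB.tot _ (hV (Fin.last k))
    have hs : (∑ i : Fin k, d i.castSucc) + d (Fin.last k) = ∑ i, d i :=
      (Fin.sum_univ_castSucc d).symm
    have hS := isRank_sum hA (hV (Fin.last k)) hs
    have h4 := hB.tot _ hS
    have φ : (Bun.sigma V).Isom ((Bun.sigma fun i : Fin k => V i.castSucc).sum
        (V (Fin.last k))) := by
      rw [← Bun.sigma_reindex]
      exact isomReindex _ _
    have e3 := ih (fun i : Fin k => V i.castSucc) (fun i => d i.castSucc)
      (fun i => hV i.castSucc) (fun i => r i.castSucc) (fun i => h i.castSucc)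
    have e4 := Ratio.isom φ (IsRank.sigma hV) (e3.sum (h (Fin.last k)) hs)
    rwa [← Fin.prod_univ_castSucc] at e4

end sigma

/-! ### Line bundles -/

section line

/-- The comparison series of the Euler classes of two orientations. -/
def cmpS : Vale.Agent.P251.F.InvSeries E.A :=
  CPSys.Coord.cmp (coordO o) (coordO o') (z_one_eq o' o)

/-- The comparison series, divided by the variable. -/
def cmpH : PowerSeries E.A := PowerSeries.mk fun i => (cmpS o o').c i

theorem cmpH_mul_X : cmpH o o' * PowerSeries.X = (cmpS o o').val := by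
  ext n
  rcases n with _ | n
  · rw [PowerSeries.coeff_zero_mul_X, PowerSeries.coeff_zero_eq_constantCoeff_apply]
    exact (cmpS o o').cc.symm
  · rw [PowerSeries.coeff_succ_mul_X, cmpH, PowerSeries.coeff_mk]
    rfl

variable {I : Type} [Fintype I] {X : LC} [E.Good X] [CompactSpace X]

theorem lc_cmp (f : C(X, CP I)) : o'.lc f = nev1 (o.lc f) (cmpS o o').val := by
  classical
  have key : ∀ (n : ℕ) (f : C(X, CP (Fin (n + 1)))), o'.lc f = nev1 (o.lc f) (cmpS o o').val := by
    intro n f
    have := good_gr_one o (Fin (n + 1))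
    have h1 : o'.z (Fin (n + 1)) = nev1 (o.z (Fin (n + 1))) (cmpS o o').val :=
      CPSys.Coord.isCmp_cmp (coordO o) (coordO o') (z_one_eq o' o) n
    rw [← mapAlg_z, ← mapAlg_z, h1, map_nev1 (E.mapAlg f)]
    exact ⟨_, z_pow_eq_zero o (n + 1) (Fin (n + 1)) (by simp)⟩
  let u : I → Fin (Fintype.card I + 1) := fun i => (Fintype.equivFin I i).castSucc
  have hu : Function.Injective u := fun a b h =>
    (Fintype.equivFin I).injective (Fin.castSucc_injective _ h)
  have h2 := key _ ((grMapC 1 (injMat u) (injMat_isom hu)).comp f)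
  rwa [lc_grMapC, lc_grMapC] at h2

theorem z_cmp [E.Good (CP I)] : o'.z I = nev1 (o.z I) (cmpS o o').val := by
  have h := lc_cmp o o' (ContinuousMap.id (CP I))
  rwa [lc_id, lc_id] at h

theorem isNilpotent_z [E.Good (CP I)] : IsNilpotent (o.z I) :=
  ⟨_, z_pow_eq_zero o _ I le_rfl⟩

theorem addZeroHom_nev1 [E.Good (CP I)] [E.Good (CP (I ⊕ Unit))] (f : PowerSeries E.A) :
    E.map Gr.addZeroHom (nev1 (o.z (I ⊕ Unit)) f) = nev1 (o.z I) f := by
  classical
  rw [addZeroHom_eq]
  have h := map_nev1 (E.mapAlg (grMapC 1 (injMat (Sum.inl : I → I ⊕ Unit))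
    (injMat_isom Sum.inl_injective))) (isNilpotent_z o (I := I ⊕ Unit)) f
  have h2 : E.mapAlg (grMapC 1 (injMat (Sum.inl : I → I ⊕ Unit))
    (injMat_isom Sum.inl_injective)) (o.z (I ⊕ Unit)) = o.z I := z_map o _ _
  rw [h2] at h
  exact h

theorem cross_one_injective {Y : LC} [E.Good Y] :
    Function.Injective fun y : E.U Y => E.cross E.one y := by
  intro a b h
  have h1 : ∀ y : E.U Y, E.cross E.one y = E.map (λ_ Y).hom y := one_cross
  change E.cross E.one a = E.cross E.one b at h
  rw [h1, h1] at h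
  exact (map_iso_bijective (λ_ Y)).1 h

/-- The Thom classes of the tautological line bundle. -/
theorem tau_cmp [E.Good (CP I)] [E.Good (CP (I ⊕ Unit))] :
    o'.tau 1 I = E.map Th.delta (E.cross (nev1 (o.z I) (cmpH o o')) (o.tau 1 I)) := by
  have := o.goodTh
  have h1 := collapse_psi_cross o (𝟙_ LC) E.one (nev1 (o.z (I ⊕ Unit)) (cmpH o o'))
  have h2 : nev1 (o.z (I ⊕ Unit)) (cmpH o o') * o.z (I ⊕ Unit) = o'.z (I ⊕ Unit) := by
    rw [z_cmp o o', ← cmpH_mul_X, nev1_mul (isNilpotent_z o), nev1_X (isNilpotent_z o)]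
  rw [addZeroHom_nev1, h2, ← z_collapse, cross_map_right] at h1
  have h3 := collapse_injective (E := E) (𝟙_ LC) I h1
  rw [psi_apply, MultTheory.map_comp, cross_assoc_inv, ← cross_map_right] at h3
  exact (cross_one_injective h3).symm

/-- The ratio of the tautological line bundle. -/
theorem ratio_taut [CompactSpace (CP I)] [E.Good (CP I)] [E.Good (CP (I ⊕ Unit))]
    [E.Good (Bun.tot (taut 1 I))] :
    Ratio (B := CP I) o o' (taut 1 I) (taut_isRank 1 I) (nev1 (o.z I) (cmpH o o')) := by
  have := o.goodTh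
  refine ratio_of_thom ?_
  rw [thom_eq, tau_cmp o o', ← MultTheory.map_comp, phi_apply]
  refine congrArg (fun k => E.map k _) ?_
  apply LC.hom_ext
  intro p
  rfl

/-- The ratio of a line bundle. -/
theorem ratio_line [E.Good (CP I)] [E.Good (CP (I ⊕ Unit))] [E.Good (Bun.tot (taut 1 I))]
    (f : C(X, CP I)) [E.Good ((taut 1 I).pullback f).tot]
    (hV : ((taut 1 I).pullback f).IsRank 1) :
    Ratio o o' ((taut 1 I).pullback f) hV (nev1 (o.lc f) (cmpH o o')) := by
  have h1 := (ratio_taut o o' (I := I)).pullback f hV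
  have h2 : E.map (cmap f) (nev1 (o.z I) (cmpH o o')) = nev1 (o.lc f) (cmpH o o') :=
    map_nev1 (E.mapAlg f) (isNilpotent_z o (I := I)) _
  rwa [h2] at h1

end line

end Vale.Agent.P257.H763
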