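import Vale.Agent.P257.H763.Ratio
import Vale.Agent.P251.G.LensFrames
import Vale.Agent.P251.Q.GoodInst

/-!
# P257: the bundle `ρ = 1 ⊕ L ⊕ … ⊕ L^{p-1}` over the projective space

`rhoG p κ : Bun (Gr 1 κ) (RhoIdx p κ)`, its pull back to the lens space is the bundle of
`lensFrames`; the ratio of the Thom classes of two orientations.
-/

open CategoryTheory MonoidalCategory OnePoint Matrix Topology
open Vale.Agent.P251.G Vale.Agent.P251.G.LC Vale.Agent.P251.G.Bun Vale.Agent.P251.Q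
open Vale.Agent.P251.Q.MultTheory
open Vale.Agent.P251.M (CPSys coordO z_one_eq mapAlg_z)
open Vale.Agent.P217 Vale.Agent.P251.F

universe v

noncomputable section

namespace Vale.Agent.P257.H763

/-- `ρ̄ = L ⊕ … ⊕ L^{p-1}` over the projective space -/
def rbarG (p : ℕ) (κ : Type) [Fintype κ] : Bun (Gr 1 κ) (RbarIdx p κ) :=
  Bun.sigma fun i : Fin (p - 1) => (taut 1 κ).tpow ((i : ℕ) + 1)

/-- `ρ = 1 ⊕ L ⊕ … ⊕ L^{p-1}` over the projective space -/
def rhoG (p : ℕ) (κ : Type) [Fintype κ] : Bun (Gr 1 κ) (RhoIdx p κ) :=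
  (Bun.triv (Gr 1 κ) Unit).sum (rbarG p κ)

theorem lensFrames_ρ_eq (p : ℕ) (hp : p ≠ 0) (κ : Type) [Fintype κ] :
    (lensFrames p hp κ).ρ = (rhoG p κ).pullback (Lens.toGr p κ) := by
  rw [lensFrames_ρ]
  rfl

theorem isRank_tpow_taut (m : ℕ) (κ : Type) [Fintype κ] : ((taut 1 κ).tpow m).IsRank 1 := by
  intro x
  have := ((taut_isRank 1 κ).tpow m) x
  rw [one_pow] at this
  exact this

theorem rbarG_isRank' (p : ℕ) (κ : Type) [Fintype κ] :
    (rbarG p κ).IsRank (∑ _i : Fin (p - 1), 1) :=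
  Bun.IsRank.sigma (n := fun _ => 1) fun i => isRank_tpow_taut _ κ

theorem rbarG_isRank (p : ℕ) (κ : Type) [Fintype κ] : (rbarG p κ).IsRank (p - 1) := by
  simpa using rbarG_isRank' p κ

theorem triv_isRank (B : LC) : (Bun.triv B Unit).IsRank 1 := by
  intro x
  simp [Bun.triv]

theorem rhoG_isRank {p : ℕ} (hp : p ≠ 0) (κ : Type) [Fintype κ] : (rhoG p κ).IsRank p :=
  isRank_sum (triv_isRank (LC.of (Gr 1 κ))) (rbarG_isRank p κ) (by omega)

theorem tpow_taut_eq (m : ℕ) (κ : Type) [Fintype κ] :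
    (taut 1 κ).tpow m = (taut 1 (Fin m → κ)).pullback (tpowC m κ) := rfl

variable {E : MultTheory.{v}} (o o' : Orientation E)

theorem ratio_tpow (κ : Type) [Fintype κ] (m : ℕ) :
    Ratio (B := CP κ) o o' ((taut 1 κ).tpow m) (isRank_tpow_taut m κ)
      (nev1 (nev1 (o.z κ) (multSeries o.law.toFG m)) (cmpH o o')) := by
  have h1 := ratio_line o o' (X := CP κ) (I := Fin m → κ) (tpowC m κ) (isRank_tpow_taut m κ)
  have h2 : o.lc (tpowC m κ) = nev1 (o.z κ) (multSeries o.law.toFG m) := by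
    have := lc_tpow o m (ContinuousMap.id (CP κ))
    rwa [lc_id] at this
  rwa [h2] at h1

theorem cmpH_cc : PowerSeries.coeff 0 (cmpH o o') = 1 := by
  rw [cmpH, PowerSeries.coeff_mk]
  exact CPSys.Coord.IsCmp.coeff_one (CPSys.Coord.isCmp_cmp (coordO o) (coordO o') (z_one_eq o' o))
    (z_one_eq o' o)

theorem nev1_zero_left {A S : Type*} [CommRing A] [CommRing S] [Algebra A S]
    (f : PowerSeries A) : nev1 (0 : S) f = algebraMap A S (PowerSeries.coeff 0 f) := by
  rw [nev1_eq_sum (n := 1) (by simp), Finset.sum_range_one, pow_zero, Algebra.smul_def, mul_one]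

theorem nev1_prod {A S : Type*} [CommRing A] [CommRing S] [Algebra A S] {x : S}
    (hx : IsNilpotent x) {ι : Type*} (s : Finset ι) (f : ι → PowerSeries A) :
    nev1 x (∏ i ∈ s, f i) = ∏ i ∈ s, nev1 x (f i) := by
  classical
  induction s using Finset.induction_on with
  | empty => simp [nev1_one hx]
  | insert i s hi ih => rw [Finset.prod_insert hi, Finset.prod_insert hi, nev1_mul hx, ih]

/-- The ratio of the trivial line bundle. -/
theorem ratio_triv (κ : Type) [Fintype κ] :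
    Ratio (B := CP κ) o o' (Bun.triv (CP κ) Unit) (triv_isRank _) 1 := by
  have h0 : Bun.triv (CP κ) Unit = (taut 1 Unit).pullback (trivL (CP κ)) := rfl
  have h1 := ratio_line o o' (X := CP κ) (I := Unit) (trivL (CP κ)) (triv_isRank _)
  have h2 : o.lc (trivL (CP κ)) = 0 := by
    have := lc_pow_eq_zero o (trivL (CP κ)) (N := 1) (by simp)
    rwa [pow_one] at this
  rw [h2, nev1_zero_left, cmpH_cc, map_one] at h1
  exact h1

/-- The power series whose value at `z` is the ratio of `ρ`. -/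
def rhoS (p : ℕ) : PowerSeries E.A :=
  ∏ i : Fin (p - 1), PowerSeries.subst (multSeries o.law.toFG ((i : ℕ) + 1)) (cmpH o o')

theorem ratio_rhoG {p : ℕ} (hp : p ≠ 0) (κ : Type) [Fintype κ] :
    Ratio (B := CP κ) o o' (rhoG p κ) (rhoG_isRank hp κ) (nev1 (o.z κ) (rhoS o o' p)) := by
  have h1 : Ratio (B := CP κ) o o' (rbarG p κ) (rbarG_isRank p κ)
      (∏ i : Fin (p - 1), nev1 (nev1 (o.z κ) (multSeries o.law.toFG ((i : ℕ) + 1)))
        (cmpH o o')) := by
    have h := Ratio.sigma_fin (B := CP κ) (fun i : Fin (p - 1) => (taut 1 κ).tpow ((i : ℕ) + 1))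
      (fun _ => 1) (fun i => isRank_tpow_taut _ κ) _ (fun i => ratio_tpow o o' κ ((i : ℕ) + 1))
    exact h.congr_rank (by simp)
  have h2 : nev1 (o.z κ) (rhoS o o' p) =
      ∏ i : Fin (p - 1), nev1 (nev1 (o.z κ) (multSeries o.law.toFG ((i : ℕ) + 1)))
        (cmpH o o') := by
    rw [rhoS, nev1_prod (isNilpotent_z o)]
    refine Finset.prod_congr rfl fun i _ => ?_
    exact Vale.Agent.P251.M.nev1_psubst (isNilpotent_z o) (constantCoeff_multSeries _ _) _
  rw [h2, ← one_mul (∏ i : Fin (p - 1), nev1 (nev1 (o.z κ)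
    (multSeries o.law.toFG ((i : ℕ) + 1))) (cmpH o o'))]
  exact (ratio_triv o o' κ).sum h1 (by omega)

end Vale.Agent.P257.H763
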